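import Vale.Agent.P136.H222.Coer

set_option linter.all false

/-! Boundary determination to first order at points with a tangent plane. -/

open MeasureTheory Filter Topology Metric
open scoped ContDiff InnerProductSpace

namespace Vale.Agent.P136.BD.Rough

open Vale.Agent.P136.Exist.Rough (SC)

theorem bd_err1 {Ω : Set E3} (hb : Bornology.IsBounded Ω) (x0 : E3) :
    ∃ C > 0, ∀ r, 0 < r → r < 1 →
      ∫ x in Ω, ‖x - x0‖ * (r ^ 4 * ((r + ‖x - x0‖) ^ 6)⁻¹) ≤ C * r ^ 2 := by
  have h0 : 0 ≤ ∫ x : E3, ((1 + ‖x‖) ^ 4)⁻¹ := integral_nonneg fun x => by positivity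
  refine ⟨(∫ x : E3, ((1 + ‖x‖) ^ 4)⁻¹) + 1, by positivity, fun r hr _ => ?_⟩
  obtain ⟨h1, h2⟩ := integrable_far r hr x0
  have hpt : ∀ x : E3, ‖x - x0‖ * (r ^ 4 * ((r + ‖x - x0‖) ^ 6)⁻¹) ≤
      r ^ 3 * ((r + ‖x - x0‖) ^ 4)⁻¹ := by
    intro x
    have hp : (0 : ℝ) < r + ‖x - x0‖ := by positivity
    have h3 : ‖x - x0‖ * r ≤ (r + ‖x - x0‖) ^ 2 := by
      have := norm_nonneg (x - x0)
      nlinarith
    calc ‖x - x0‖ * (r ^ 4 * ((r + ‖x - x0‖) ^ 6)⁻¹)
        = (‖x - x0‖ * r) * (r ^ 3 * ((r + ‖x - x0‖) ^ 6)⁻¹) := by ring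
      _ ≤ (r + ‖x - x0‖) ^ 2 * (r ^ 3 * ((r + ‖x - x0‖) ^ 6)⁻¹) := by gcongr
      _ = _ := by field_simp
  have hc : Continuous fun x : E3 => ‖x - x0‖ * (r ^ 4 * ((r + ‖x - x0‖) ^ 6)⁻¹) := by
    have := maj_continuous x0 hr
    unfold maj at this
    exact (continuous_id.sub continuous_const).norm.mul this
  calc ∫ x in Ω, ‖x - x0‖ * (r ^ 4 * ((r + ‖x - x0‖) ^ 6)⁻¹)
      ≤ ∫ x in Ω, r ^ 3 * ((r + ‖x - x0‖) ^ 4)⁻¹ := by
        apply setIntegral_mono
        · exact integrableOn_of_cont hb hc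
        · exact (h1.const_mul _).integrableOn
        · exact hpt
    _ ≤ ∫ x, r ^ 3 * ((r + ‖x - x0‖) ^ 4)⁻¹ := by
        apply setIntegral_le_integral (h1.const_mul _)
        exact ae_of_all _ fun x => by positivity
    _ = (∫ x : E3, ((1 + ‖x‖) ^ 4)⁻¹) * r ^ 2 := by
        rw [integral_const_mul, h2]
        field_simp
    _ ≤ _ := by
        gcongr
        linarith

theorem bd_end' {Ω : Set E3} (hΩo : IsOpen Ω) (hb : Bornology.IsBounded Ω) {x0 : E3} (hx : x0 ∈ frontier Ω) {n : E3}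
    {r0 : ℝ} (hn : ‖n‖ = 1) (hr0 : 0 < r0)
    (hball : ∀ r, 0 < r → r < r0 → Metric.ball (x0 - (2 * r) • n) r ⊆ Ω)
    (hup : ∀ η > 0, ∃ K, 0 ≤ K ∧ ∀ x ∈ Ω, ⟪n, x - x0⟫_ℝ ≤ η * ‖x - x0‖ + K * ‖x - x0‖ ^ 2)
    (htan : ∀ f : E3 → ℝ, ContDiff ℝ ∞ f → (∀ z ∈ frontier Ω, f z = 0) → ∀ v, ⟪n, v⟫_ℝ = 0 →
        fderiv ℝ f x0 v = 0)
    {f : E3 → ℝ} (hf : ContDiff ℝ ∞ f) (P : ℝ → E3 → ℝ) {ε c1 C1 C2 : ℝ}
    (hε : 0 < ε) (hε1 : ε ≤ 1) (hc1 : 0 < c1)
    (hPc : ∀ r, 0 < r → r < r0 → Continuous (P r))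
    (hP0 : ∀ r, 0 < r → r < r0 → ∀ x ∈ Ω,
      0 ≤ P r x ∧ P r x ≤ C1 * (r ^ 4 * ((r + ‖x - x0‖) ^ 6)⁻¹))
    (hP1 : ∀ r, 0 < r → r < r0 → ∀ x ∈ Metric.ball (x0 - (2 * r) • n) (ε * r),
      c1 * (r ^ 2)⁻¹ ≤ P r x)
    (hint : ∀ r, 0 < r → r < r0 → - C2 * r ^ 3 ≤ ∫ x in Ω, f x * P r x) :
    0 ≤ f x0 ∧ ((∀ z ∈ frontier Ω, f z = 0) → fderiv ℝ f x0 n ≤ 0) := by
  obtain ⟨D', hD'⟩ := hb.subset_closedBall x0
  set D := max D' 1 with hDdef
  have hD : ∀ x ∈ Ω, ‖x - x0‖ ≤ D := fun x hx => by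
    rw [← dist_eq_norm]
    exact (hD' hx).trans (le_max_left _ _)
  obtain ⟨K, hK0, hK⟩ := taylor2 hf x0 D
  obtain ⟨Ce, hCe, herr⟩ := bd_err hb x0
  set v := (volume (ball (0 : E3) 1)).toReal with hv
  have hv0 : 0 < v := by
    rw [hv]
    exact ENNReal.toReal_pos (measure_ball_pos volume _ (by norm_num)).ne'
      measure_ball_lt_top.ne
  -- the second moment of `P`
  have hmom : ∀ r, 0 < r → r < min r0 1 →
      ∫ x in Ω, ‖x - x0‖ ^ 2 * P r x ≤ |C1| * Ce * r ^ 3 := by
    intro r hr hr1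
    have hr2 : r < r0 := lt_of_lt_of_le hr1 (min_le_left _ _)
    have hr3 : r < 1 := lt_of_lt_of_le hr1 (min_le_right _ _)
    have hmc := maj_continuous x0 hr
    have hPr := hPc r hr hr2
    calc ∫ x in Ω, ‖x - x0‖ ^ 2 * P r x
        ≤ ∫ x in Ω, |C1| * (‖x - x0‖ ^ 2 * maj x0 r x) := by
          apply setIntegral_mono_on
          · exact integrableOn_of_cont hb (by fun_prop)
          · exact integrableOn_of_cont hb (by fun_prop)
          · exact hΩo.measurableSet
          · intro x hx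
            have h1 := (hP0 r hr hr2 x hx).2
            have h2 : C1 * maj x0 r x ≤ |C1| * maj x0 r x :=
              mul_le_mul_of_nonneg_right (le_abs_self _) (maj_nonneg x0 hr x)
            have h3 : P r x ≤ |C1| * maj x0 r x := h1.trans h2
            calc ‖x - x0‖ ^ 2 * P r x ≤ ‖x - x0‖ ^ 2 * (|C1| * maj x0 r x) := by gcongr
              _ = _ := by ring
      _ = |C1| * ∫ x in Ω, ‖x - x0‖ ^ 2 * maj x0 r x := integral_const_mul _ _
      _ ≤ |C1| * (Ce * r ^ 3) := by
          apply mul_le_mul_of_nonneg_left _ (abs_nonneg _)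
          exact herr r hr hr3
      _ = _ := by ring
  -- main inequality
  have main : ∀ (K' : ℝ) (m : ℝ → ℝ), 0 ≤ K' → (∀ r, 0 < r → 0 ≤ m r) →
      (∀ x ∈ Ω, 0 ≤ - f x + K' * ‖x - x0‖ ^ 2) →
      (∀ r, 0 < r → r < r0 → ∀ x ∈ ball (x0 - (2 * r) • n) (ε * r),
        m r ≤ - f x + K' * ‖x - x0‖ ^ 2) →
      ∀ r, 0 < r → r < min r0 1 →
        c1 * ε ^ 3 * v * m r * r ≤ (|C2| + K' * (|C1| * Ce)) * r ^ 3 := by
    intro K' m hK' hm hg0 hgm r hr hr1
    have hr2 : r < r0 := lt_of_lt_of_le hr1 (min_le_left _ _)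
    have hPr := hPc r hr hr2
    have hfc := hf.continuous
    have h1 := bd_lower hΩo hb hr hε hε1 hc1 (hball r hr hr2)
      (g := fun x => - f x + K' * ‖x - x0‖ ^ 2) (P := P r) (by fun_prop) hPr
      (fun x hx => (hP0 r hr hr2 x hx).1) (hP1 r hr hr2) (hm r hr) hg0 (hgm r hr hr2)
    have e : ∫ x in Ω, (- f x + K' * ‖x - x0‖ ^ 2) * P r x =
        - (∫ x in Ω, f x * P r x) + K' * ∫ x in Ω, ‖x - x0‖ ^ 2 * P r x := by
      rw [← integral_const_mul, ← integral_neg, ← integral_add]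
      · congr 1
        funext x
        ring
      · exact integrableOn_of_cont hb (by fun_prop)
      · exact integrableOn_of_cont hb (by fun_prop)
    rw [e] at h1
    have h2 := hint r hr hr2
    have h3 := mul_le_mul_of_nonneg_left (hmom r hr hr1) hK'
    have h4 : C2 * r ^ 3 ≤ |C2| * r ^ 3 := by
      apply mul_le_mul_of_nonneg_right (le_abs_self _) (by positivity)
    calc _ ≤ _ := h1
      _ ≤ |C2| * r ^ 3 + K' * (|C1| * Ce * r ^ 3) := by linarith only [h4, h3, h2]
      _ = _ := by ring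
  have hrr : 0 < min r0 1 := lt_min hr0 one_pos
  constructor
  · by_contra hcon
    rw [not_le] at hcon
    set δ := - f x0 with hδ
    have hδ0 : 0 < δ := by linarith
    set L := ‖fderiv ℝ f x0‖ with hL
    set K' := L ^ 2 / (2 * δ) + K with hK'
    have hK'0 : 0 ≤ K' := by (clear * - hδ0 hK0; positivity)
    have hfx : ∀ x, ‖x - x0‖ ≤ D → δ / 2 ≤ - f x + K' * ‖x - x0‖ ^ 2 := by
      intro x hx
      have h1 := (abs_le.1 (hK x hx)).2
      have h2 : |fderiv ℝ f x0 (x - x0)| ≤ L * ‖x - x0‖ := by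
        rw [← Real.norm_eq_abs]
        exact (fderiv ℝ f x0).le_opNorm _
      have h3 := (abs_le.1 h2).2
      have h4 : L * ‖x - x0‖ ≤ δ / 2 + L ^ 2 / (2 * δ) * ‖x - x0‖ ^ 2 := by
        have e : δ / 2 + L ^ 2 / (2 * δ) * ‖x - x0‖ ^ 2 - L * ‖x - x0‖ =
            (L * ‖x - x0‖ - δ) ^ 2 / (2 * δ) := by
          field_simp
          ring
        have : 0 ≤ (L * ‖x - x0‖ - δ) ^ 2 / (2 * δ) := by (clear * - hδ0; positivity)
        linarith only [this, e]
      rw [hK']
      linarith only [h4, h3, h1]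
    have h5 := main K' (fun _ => δ / 2) hK'0 (fun _ _ => by positivity)
      (fun x hx => le_trans (by positivity) (hfx x (hD x hx)))
      (fun r hr hr2 x hx => hfx x (hD x (hball r hr hr2 (ball_subset_ball (by (by_contra nlg; linarith only [nlg, mul_nonneg (sub_nonneg.2 hε1) (le_of_lt (sub_pos.2 hr)), mul_nonneg (le_of_lt (sub_pos.2 (not_le.1 nlg))) (sub_nonneg.2 hε1), mul_pos (sub_pos.2 (not_le.1 nlg)) (sub_pos.2 hε)])) hx))))
    have h6 : c1 * ε ^ 3 * v * (δ / 2) ≤ 0 := by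
      apply bd_limit (A := |C2| + K' * (|C1| * Ce)) hrr
      intro r hr hr1
      have h7 := h5 r hr hr1
      have hr3 : r < 1 := lt_of_lt_of_le hr1 (min_le_right _ _)
      have h8 : 0 ≤ |C2| + K' * (|C1| * Ce) := by (clear * - hδ0 hK0 hCe; positivity)
      have h9 : c1 * ε ^ 3 * v * (δ / 2) * r ≤ ((|C2| + K' * (|C1| * Ce)) * r) * r := by
        calc _ ≤ _ := h7
          _ = ((|C2| + K' * (|C1| * Ce)) * r * r) * r := by ring
          _ ≤ ((|C2| + K' * (|C1| * Ce)) * r * 1) * r := by gcongr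
          _ = _ := by ring
      exact le_of_mul_le_mul_right h9 hr
    have : 0 < c1 * ε ^ 3 * v * (δ / 2) := by positivity
    linarith only [this, h6]
  · intro hfr
    by_contra hcon
    rw [not_le] at hcon
    set b := fderiv ℝ f x0 n with hbdef
    obtain ⟨Ce1, hCe1, herr1⟩ := bd_err1 hb x0
    have hmom1 : ∀ r, 0 < r → r < min r0 1 →
        ∫ x in Ω, ‖x - x0‖ * P r x ≤ |C1| * Ce1 * r ^ 2 := by
      intro r hr hr1
      have hr2 : r < r0 := lt_of_lt_of_le hr1 (min_le_left _ _)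
      have hr3 : r < 1 := lt_of_lt_of_le hr1 (min_le_right _ _)
      have hmc := maj_continuous x0 hr
      have hPr := hPc r hr hr2
      calc ∫ x in Ω, ‖x - x0‖ * P r x
          ≤ ∫ x in Ω, |C1| * (‖x - x0‖ * maj x0 r x) := by
            apply setIntegral_mono_on
            · exact integrableOn_of_cont hb (by fun_prop)
            · exact integrableOn_of_cont hb (by fun_prop)
            · exact hΩo.measurableSet
            · intro x hx
              have h1 := (hP0 r hr hr2 x hx).2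
              have h2 : C1 * maj x0 r x ≤ |C1| * maj x0 r x :=
                mul_le_mul_of_nonneg_right (le_abs_self _) (maj_nonneg x0 hr x)
              have h3 : P r x ≤ |C1| * maj x0 r x := h1.trans h2
              calc ‖x - x0‖ * P r x ≤ ‖x - x0‖ * (|C1| * maj x0 r x) := by gcongr
                _ = _ := by ring
        _ = |C1| * ∫ x in Ω, ‖x - x0‖ * maj x0 r x := integral_const_mul _ _
        _ ≤ |C1| * (Ce1 * r ^ 2) := by
            apply mul_le_mul_of_nonneg_left _ (abs_nonneg _)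
            exact herr1 r hr hr3
        _ = _ := by ring
    set q := c1 * ε ^ 3 * v with hq
    have hq0 : 0 < q := by positivity
    set η := q / (2 * (|C1| * Ce1 + 1)) with hη
    have hA : 0 ≤ |C1| * Ce1 := by positivity
    have hη0 : 0 < η := by positivity
    have hηle : η * (|C1| * Ce1) ≤ q / 2 := by
      rw [hη, div_mul_eq_mul_div, div_le_div_iff₀ (by positivity) (by norm_num)]
      linarith only [mul_nonneg hq0.le hA, hq0]
    obtain ⟨M, hM0, hM⟩ := hup η hη0
    have hnn : ⟪n, n⟫_ℝ = 1 := by rw [real_inner_self_eq_norm_sq, hn]; norm_num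
    have hlin : ∀ w, fderiv ℝ f x0 w = b * ⟪n, w⟫_ℝ := by
      intro w
      have h1 := htan f hf hfr (w - ⟪n, w⟫_ℝ • n) (by
        rw [inner_sub_right, real_inner_smul_right, hnn]; ring)
      rw [map_sub, map_smul, smul_eq_mul, ← hbdef] at h1
      linarith
    set K' := K + b * M with hK'
    have hK'0 : 0 ≤ K' := by (clear * - hK0 hcon hM0; positivity)
    have hfx : ∀ x, ‖x - x0‖ ≤ D → - (b * ⟪n, x - x0⟫_ℝ) + b * M * ‖x - x0‖ ^ 2 ≤
        - f x + K' * ‖x - x0‖ ^ 2 := by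
      intro x hx
      have h1 := (abs_le.1 (hK x hx)).2
      rw [hfr x0 ‹_›, sub_zero, hlin] at h1
      rw [hK']
      linarith only [h1]
    have hrr : 0 < min r0 1 := lt_min hr0 one_pos
    have h6 : q * b - b * (η * (|C1| * Ce1)) ≤ 0 := by
      apply bd_limit (A := |C2| + K' * (|C1| * Ce)) hrr
      intro r hr hr1
      have hr2 : r < r0 := lt_of_lt_of_le hr1 (min_le_left _ _)
      have hPr := hPc r hr hr2
      have hfc := hf.continuous
      have h1 := bd_lower hΩo hb hr hε hε1 hc1 (hball r hr hr2)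
        (g := fun x => - f x + b * η * ‖x - x0‖ + K' * ‖x - x0‖ ^ 2) (P := P r)
        (m := b * r) (by fun_prop) hPr
        (fun x hx => (hP0 r hr hr2 x hx).1) (hP1 r hr hr2)
        (by (clear * - hcon hr; positivity))
        (fun x hx => by
          have h1 := hfx x (hD x hx)
          have h2 := mul_le_mul_of_nonneg_left (hM x hx) hcon.le
          linarith only [h2, h1])
        (fun x hx => by
          have hx' : x ∈ ball (x0 - (2 * r) • n) r := by
            refine ball_subset_ball ?_ hx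
            calc ε * r ≤ 1 * r := mul_le_mul_of_nonneg_right hε1 hr.le
              _ = r := one_mul r
          have hxΩ := hball r hr hr2 hx'
          have h1 := hfx x (hD x hxΩ)
          have h2 : ⟪n, x - x0⟫_ℝ ≤ - r := by
            have e : x - x0 = (x - (x0 - (2 * r) • n)) - (2 * r) • n := by abel
            rw [mem_ball, dist_eq_norm] at hx'
            have h3 := real_inner_le_norm n (x - (x0 - (2 * r) • n))
            rw [hn, one_mul] at h3
            rw [e, inner_sub_right, real_inner_smul_right, hnn]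
            linarith only [h3, hx']
          have h3 : 0 ≤ b * M * ‖x - x0‖ ^ 2 := by (clear * - hcon hM0; positivity)
          have h3' : 0 ≤ b * η * ‖x - x0‖ := by (clear * - hcon hη0; positivity)
          have h4 := mul_le_mul_of_nonneg_left h2 hcon.le
          linarith only [h1, h3, h3', h4])
      have e : ∫ x in Ω, (- f x + b * η * ‖x - x0‖ + K' * ‖x - x0‖ ^ 2) * P r x =
          - (∫ x in Ω, f x * P r x) + b * η * (∫ x in Ω, ‖x - x0‖ * P r x) +
            K' * ∫ x in Ω, ‖x - x0‖ ^ 2 * P r x := by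
        have i1 : IntegrableOn (fun x => f x * P r x) Ω := integrableOn_of_cont hb (by fun_prop)
        have i2 : IntegrableOn (fun x => ‖x - x0‖ * P r x) Ω :=
          integrableOn_of_cont hb (by fun_prop)
        have i3 : IntegrableOn (fun x => ‖x - x0‖ ^ 2 * P r x) Ω :=
          integrableOn_of_cont hb (by fun_prop)
        have i4 : IntegrableOn (fun x => -(f x * P r x) + b * η * (‖x - x0‖ * P r x)) Ω :=
          i1.neg.add (i2.const_mul (b * η))
        have e1 : ∫ x in Ω, (-(f x * P r x) + b * η * (‖x - x0‖ * P r x)) =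
            - (∫ x in Ω, f x * P r x) + b * η * (∫ x in Ω, ‖x - x0‖ * P r x) := by
          rw [← integral_const_mul, ← integral_neg]
          exact integral_add i1.neg (i2.const_mul (b * η))
        rw [← e1, ← integral_const_mul]
        have e2 := integral_add i4 (i3.const_mul K')
        rw [← e2]
        congr 1
        funext x
        ring
      rw [e, ← hv, ← hq] at h1
      have h2 := hint r hr hr2
      have h3 := mul_le_mul_of_nonneg_left (hmom r hr hr1) hK'0
      have h3' := mul_le_mul_of_nonneg_left (hmom1 r hr hr1)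
        (mul_nonneg hcon.le hη0.le)
      have h4 : C2 * r ^ 3 ≤ |C2| * r ^ 3 := by
        apply mul_le_mul_of_nonneg_right (le_abs_self _) (by positivity)
      have h9 : (q * b - b * (η * (|C1| * Ce1))) * r ^ 2 ≤
          ((|C2| + K' * (|C1| * Ce)) * r) * r ^ 2 := by
        have e1 : (q * b - b * (η * (|C1| * Ce1))) * r ^ 2 =
            q * (b * r) * r - b * η * (|C1| * Ce1 * r ^ 2) := by ring
        have e2 : ((|C2| + K' * (|C1| * Ce)) * r) * r ^ 2 =
            |C2| * r ^ 3 + K' * (|C1| * Ce * r ^ 3) := by ring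
        rw [e1, e2]
        linarith only [h1, h2, h3, h3', h4]
      exact le_of_mul_le_mul_right h9 (by positivity)
    have h7 : b * (η * (|C1| * Ce1)) ≤ b * (q / 2) := mul_le_mul_of_nonneg_left hηle hcon.le
    have h8 : 0 < b * q := mul_pos hcon hq0
    linarith only [h6, h7, h8]

end Vale.Agent.P136.BD.Rough
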