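import Vale.Agent.P136.H222.Exist

set_option linter.all false

/-! Coercivity on `H¹₀`, the energy comparison and the transfer of solutions. -/

open MeasureTheory Filter Topology
open scoped ContDiff InnerProductSpace

namespace Vale.Agent.P136.BD.Rough

open Vale.Agent.P136.Exist.Rough (SC)

lemma eq2_le_sum' (A : Fin 3 → Fin 3 → ℝ) : eq2 A ≤ ∑ i, ∑ j, (A i j) ^ 2 := eq2_le_sum A

lemma memG_test {Ω : Set E3} (hb : Bornology.IsBounded Ω) {φ : Fin 3 → E3 → ℝ}
    (h : ∀ j, IsTest Ω (φ j)) : MemG Ω (fun i j => pd i (φ j)) := fun i j =>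
  memLp_cont hb (pd_contDiff_infty (h j).1 i).continuous

lemma sq_int' {μ : Measure E3} {f : E3 → ℝ} (hf : MemLp f 2 μ) :
    Integrable (fun x => (f x) ^ 2) μ := Exist.sq_int hf

/-- upper bound of the form -/
lemma form_le {Ω : Set E3} (hm : MeasurableSet Ω) (hb : Bornology.IsBounded Ω)
    {lam mu : E3 → ℝ} (hl : Continuous lam) (hmu : Continuous mu) :
    ∃ C : ℝ, 0 ≤ C ∧ ∀ D : Fin 3 → Fin 3 → E3 → ℝ, MemG Ω D →
      |form Ω lam mu D D| ≤ C * ∑ i, ∑ j, ∫ x in Ω, (D i j x) ^ 2 := by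
  obtain ⟨M1, hM1, h1⟩ := coef_bdd hb hl
  obtain ⟨M2, hM2, h2⟩ := coef_bdd hb hmu
  obtain ⟨k, hk, hk1, hk2⟩ : ∃ k : ℝ, 0 < k ∧ M1 ≤ k ∧ M2 ≤ k :=
    ⟨M1 + M2 + 1, by linarith, by linarith, by linarith⟩
  refine ⟨5 * k, by positivity, fun D hD => ?_⟩
  have hs : ∀ i j, Integrable (fun x => (D i j x) ^ 2) (volume.restrict Ω) := fun i j =>
    sq_int' (hD i j)
  have hS : Integrable (fun x => ∑ i, ∑ j, (D i j x) ^ 2) (volume.restrict Ω) :=
    integrable_finsetSum _ fun i _ => integrable_finsetSum _ fun j _ => hs i j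
  have e : ∑ i, ∑ j, ∫ x in Ω, (D i j x) ^ 2 = ∫ x in Ω, ∑ i, ∑ j, (D i j x) ^ 2 := by
    rw [integral_finsetSum _ fun i _ => integrable_finsetSum _ fun j _ => hs i j]
    exact Finset.sum_congr rfl fun i _ => (integral_finsetSum _ fun j _ => hs i j).symm
  rw [e, form_eq, ← integral_const_mul, ← Real.norm_eq_abs]
  refine norm_integral_le_of_norm_le (hS.const_mul (5 * k)) ?_
  filter_upwards [ae_restrict_mem hm] with x hx
  have a1 := (h1 x (subset_closure hx)).trans hk1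
  have a2 := (h2 x (subset_closure hx)).trans hk2
  have a3 := fq_bound _ _ k a1 a2 (fun i j => D i j x) (fun i j => D i j x) k hk
  have a4 := eq2_le_sum (fun i j => D i j x)
  rw [Real.norm_eq_abs]
  have a5 : 5 * k ^ 2 / (2 * k) = 5 * k / 2 := by field_simp
  rw [a5] at a3
  have a6 := mul_le_mul_of_nonneg_left a4 (by positivity : 0 ≤ 5 * k)
  linarith only [a3, a6]

/-- coercivity passes to limits of test fields. -/
lemma coer_lim {Ω : Set E3} (hm : MeasurableSet Ω) (hb : Bornology.IsBounded Ω)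
    {lam mu : E3 → ℝ} (hl : Continuous lam) (hmu : Continuous mu) {c : ℝ}
    (hc : ∀ φ : Fin 3 → E3 → ℝ, (∀ j, IsTest Ω (φ j)) →
      c * ∑ i, ∑ j, ∫ x in Ω, (pd i (φ j) x) ^ 2 ≤
        form Ω lam mu (fun i j => pd i (φ j)) (fun i j => pd i (φ j)))
    {z : Fin 3 → Fin 3 → E3 → ℝ} (hz : MemG Ω z) {φ : ℕ → Fin 3 → E3 → ℝ}
    (hφ : ∀ n j, IsTest Ω (φ n j))
    (ht : ∀ i j, Tendsto (fun n => ∫ x in Ω, (z i j x - pd i (φ n j) x) ^ 2) atTop (𝓝 0)) :
    c * ∑ i, ∑ j, ∫ x in Ω, (z i j x) ^ 2 ≤ form Ω lam mu z z := by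
  obtain ⟨C, hC, hCb⟩ := form_le hm hb hl hmu
  have hg : ∀ n, MemG Ω (fun i j => pd i (φ n j)) := fun n => memG_test hb (hφ n)
  have hD : ∀ n, MemG Ω (fun i j x => z i j x - pd i (φ n j) x) := fun n => hz.sub (hg n)
  have t1 := form_tendsto hm hb hl hmu (D := fun n i j => pd i (φ n j)) hz hz hg ht
  have t2 : Tendsto (fun n => form Ω lam mu (fun i j x => z i j x - pd i (φ n j) x)
      (fun i j x => z i j x - pd i (φ n j) x)) atTop (𝓝 0) := by
    have s1 : Tendsto (fun n => C * ∑ i, ∑ j, ∫ x in Ω, (z i j x - pd i (φ n j) x) ^ 2)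
        atTop (𝓝 0) := by
      have := (tendsto_finsetSum (Finset.univ : Finset (Fin 3)) fun i _ =>
        tendsto_finsetSum (Finset.univ : Finset (Fin 3)) fun j _ => ht i j).const_mul C
      simpa using this
    exact squeeze_zero_norm (fun n => by rw [Real.norm_eq_abs]; exact hCb _ (hD n)) s1
  have t3 : Tendsto (fun n => form Ω lam mu (fun i j => pd i (φ n j)) (fun i j => pd i (φ n j)))
      atTop (𝓝 (form Ω lam mu z z)) := by
    have e : ∀ n, form Ω lam mu (fun i j => pd i (φ n j)) (fun i j => pd i (φ n j)) =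
        form Ω lam mu (fun i j x => z i j x - pd i (φ n j) x)
          (fun i j x => z i j x - pd i (φ n j) x) +
        2 * form Ω lam mu z (fun i j => pd i (φ n j)) - form Ω lam mu z z := by
      intro n
      rw [form_sub_right hm hb hl hmu (hD n) hz (hg n), form_sub_left hm hb hl hmu hz hz (hg n),
        form_sub_left hm hb hl hmu (hg n) hz (hg n),
        form_symm Ω lam mu (fun i j => pd i (φ n j)) z]
      ring
    simp_rw [e]
    have := (t2.add (t1.const_mul 2)).sub_const (form Ω lam mu z z)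
    have e2 : 0 + 2 * form Ω lam mu z z - form Ω lam mu z z = form Ω lam mu z z := by ring
    rwa [e2] at this
  have t4 : ∀ i j, Tendsto (fun n => ∫ x in Ω, (pd i (φ n j) x) ^ 2) atTop
      (𝓝 (∫ x in Ω, (z i j x) ^ 2)) := by
    intro i j
    have s1 := tendsto_zero_of_sq (hz i j) (fun n => hD n i j) (ht i j)
    have e : ∀ n, ∫ x in Ω, (pd i (φ n j) x) ^ 2 = (∫ x in Ω, (z i j x) ^ 2) -
        2 * (∫ x in Ω, z i j x * (z i j x - pd i (φ n j) x)) +
        ∫ x in Ω, (z i j x - pd i (φ n j) x) ^ 2 := by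
      intro n
      have i1 := sq_int' (hz i j)
      have i2 : Integrable (fun x => z i j x * (z i j x - pd i (φ n j) x))
          (volume.restrict Ω) := (hz i j).integrable_mul (hD n i j)
      have i3 : Integrable (fun x => (z i j x - pd i (φ n j) x) ^ 2) (volume.restrict Ω) :=
        sq_int' (hD n i j)
      have i4 : Integrable (fun x => (z i j x) ^ 2 -
          2 * (z i j x * (z i j x - pd i (φ n j) x))) (volume.restrict Ω) :=
        i1.sub (i2.const_mul 2)
      rw [← integral_const_mul, ← integral_sub i1 (i2.const_mul 2), ← integral_add i4 i3]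
      congr 1
      funext x
      ring
    simp_rw [e]
    have := (tendsto_const_nhds (x := ∫ x in Ω, (z i j x) ^ 2)).sub (s1.const_mul 2) |>.add (ht i j)
    have e2 : (∫ x in Ω, (z i j x) ^ 2) - 2 * 0 + 0 = ∫ x in Ω, (z i j x) ^ 2 := by ring
    rwa [e2] at this
  have t5 : Tendsto (fun n => c * ∑ i, ∑ j, ∫ x in Ω, (pd i (φ n j) x) ^ 2) atTop
      (𝓝 (c * ∑ i, ∑ j, ∫ x in Ω, (z i j x) ^ 2)) :=
    (tendsto_finsetSum _ fun i _ => tendsto_finsetSum _ fun j _ => t4 i j).const_mul c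
  exact le_of_tendsto_of_tendsto' t5 t3 fun n => hc _ (hφ n)

/-- test fields approximating the difference of two fields with the same trace. -/
lemma approx_diff {Ω : Set E3} (hb : Bornology.IsBounded Ω) {f w w' : H1 Ω}
    (h1 : SameTrace w f) (h2 : SameTrace w' f) :
    ∃ φ : ℕ → Fin 3 → E3 → ℝ, (∀ n j, IsTest Ω (φ n j)) ∧
      ∀ i j, Tendsto (fun n => ∫ x in Ω, (w.der i j x - w'.der i j x - pd i (φ n j) x) ^ 2)
        atTop (𝓝 0) := by
  obtain ⟨φ, hφ, -, hφ2⟩ := h1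
  obtain ⟨φ', hφ', -, hφ2'⟩ := h2
  have htest : ∀ n j, IsTest Ω (fun x => φ n j x - φ' n j x) := fun n j =>
    Exist.IsTest.sub (hφ n j) (hφ' n j)
  refine ⟨fun n j x => φ n j x - φ' n j x, htest, fun i j => ?_⟩
  have hp : ∀ n, MemLp (pd i (φ n j)) 2 (volume.restrict Ω) := fun n =>
    memLp_cont hb (pd_contDiff_infty (hφ n j).1 i).continuous
  have hp' : ∀ n, MemLp (pd i (φ' n j)) 2 (volume.restrict Ω) := fun n =>
    memLp_cont hb (pd_contDiff_infty (hφ' n j).1 i).continuous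
  have a1 : ∀ n, MemLp (fun x => w.der i j x - f.der i j x - pd i (φ n j) x) 2
      (volume.restrict Ω) := fun n => ((w.der_mem i j).sub (f.der_mem i j)).sub (hp n)
  have a2 : ∀ n, MemLp (fun x => w'.der i j x - f.der i j x - pd i (φ' n j) x) 2
      (volume.restrict Ω) := fun n => ((w'.der_mem i j).sub (f.der_mem i j)).sub (hp' n)
  have hle : ∀ n, ∫ x in Ω, (w.der i j x - w'.der i j x -
        pd i (fun x => φ n j x - φ' n j x) x) ^ 2 ≤
      2 * (∫ x in Ω, (w.der i j x - f.der i j x - pd i (φ n j) x) ^ 2) +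
      2 * (∫ x in Ω, (w'.der i j x - f.der i j x - pd i (φ' n j) x) ^ 2) := by
    intro n
    rw [← integral_const_mul, ← integral_const_mul, ← integral_add
      ((sq_int' (a1 n)).const_mul 2) ((sq_int' (a2 n)).const_mul 2)]
    refine integral_mono_of_nonneg (ae_of_all _ fun x => sq_nonneg _)
      (((sq_int' (a1 n)).const_mul 2).add ((sq_int' (a2 n)).const_mul 2))
      (ae_of_all _ fun x => ?_)
    simp only [Exist.pd_sub' (hφ n j).1 (hφ' n j).1]
    linarith only [sq_nonneg ((w.der i j x - f.der i j x - pd i (φ n j) x) + (w'.der i j x - f.der i j x - pd i (φ' n j) x))]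
  have hlim : Tendsto (fun n => 2 * (∫ x in Ω, (w.der i j x - f.der i j x - pd i (φ n j) x) ^ 2) +
      2 * (∫ x in Ω, (w'.der i j x - f.der i j x - pd i (φ' n j) x) ^ 2)) atTop (𝓝 0) := by
    simpa using ((hφ2 i j).const_mul 2).add ((hφ2' i j).const_mul 2)
  exact squeeze_zero (fun n => integral_nonneg fun x => sq_nonneg _) hle hlim

/-- coercivity on differences of fields with the same trace -/
lemma coer_diff {Ω : Set E3} (hm : MeasurableSet Ω) (hb : Bornology.IsBounded Ω)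
    {lam mu : E3 → ℝ} (hl : Continuous lam) (hmu : Continuous mu) {c : ℝ}
    (hc : ∀ φ : Fin 3 → E3 → ℝ, (∀ j, IsTest Ω (φ j)) →
      c * ∑ i, ∑ j, ∫ x in Ω, (pd i (φ j) x) ^ 2 ≤
        form Ω lam mu (fun i j => pd i (φ j)) (fun i j => pd i (φ j)))
    {f w w' : H1 Ω} (h1 : SameTrace w f) (h2 : SameTrace w' f) :
    c * ∑ i, ∑ j, ∫ x in Ω, (w.der i j x - w'.der i j x) ^ 2 ≤
      form Ω lam mu (fun i j x => w.der i j x - w'.der i j x)
        (fun i j x => w.der i j x - w'.der i j x) := by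
  obtain ⟨φ, hφ, ht⟩ := approx_diff hb h1 h2
  exact coer_lim hm hb hl hmu hc (MemG.sub w.der_mem w'.der_mem) hφ ht

/-- The energy comparison inequality. -/
theorem energy_ineq' {Ω : Set E3} (ho : IsOpen Ω)
    (hb : Bornology.IsBounded Ω) {lam₁ mu₁ lam₂ mu₂ : E3 → ℝ} (h1 : SC Ω lam₁ mu₁)
    (h2 : SC Ω lam₂ mu₂) (hS : SameDN Ω lam₁ mu₁ lam₂ mu₂) (x0 : E3) :
    ∃ C : ℝ, 0 < C ∧ ∀ (Γ : Fin 3 → E3 → ℝ) (hΓ : ∀ j, ContDiff ℝ ∞ (Γ j)),
      (∀ φ : Fin 3 → E3 → ℝ, (∀ j, IsTest Ω (φ j)) →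
        form Ω (fun _ => lam₂ x0) (fun _ => mu₂ x0) (fun i j => pd i (Γ j))
          (fun i j => pd i (φ j)) = 0) →
      - C * (∫ x in Ω, ‖x - x0‖ ^ 2 * eq2 (fun i j => pd i (Γ j) x)) ≤
        ∫ x in Ω, fq (lam₁ x - lam₂ x) (mu₁ x - mu₂ x) (fun i j => pd i (Γ j) x)
          (fun i j => pd i (Γ j) x) := by
  have hm : MeasurableSet Ω := ho.measurableSet
  obtain ⟨c1, hc1, hco1⟩ := h1.coer
  obtain ⟨c, hc, hco2⟩ := h2.coer
  -- Lipschitz bound
  have hLip : ∃ K : ℝ, 0 < K ∧ ∀ x ∈ Ω, |lam₂ x - lam₂ x0| ≤ K * ‖x - x0‖ ∧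
      |mu₂ x - mu₂ x0| ≤ K * ‖x - x0‖ := by
    obtain ⟨R, hR⟩ := hb.subset_closedBall x0
    have aux : ∀ f : E3 → ℝ, ContDiff ℝ ∞ f → ∃ K : ℝ, 0 ≤ K ∧ ∀ x ∈ Ω,
        |f x - f x0| ≤ K * ‖x - x0‖ := by
      intro f hf
      have hcont : Continuous (fun x => ‖fderiv ℝ f x‖) :=
        (hf.continuous_fderiv (by simp)).norm
      obtain ⟨K, hK⟩ := (isCompact_closedBall x0 R).bddAbove_image hcont.continuousOn
      refine ⟨max K 0, le_max_right _ _, fun x hx => ?_⟩
      have hx' := hR hx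
      have hx0 : x0 ∈ Metric.closedBall x0 R := by
        rw [Metric.mem_closedBall, dist_self]
        exact le_trans dist_nonneg (Metric.mem_closedBall.mp hx')
      have := (convex_closedBall x0 R).norm_image_sub_le_of_norm_fderiv_le (𝕜 := ℝ) (f := f)
        (C := max K 0) (fun y _ => (hf.differentiable (by simp)) y)
        (fun y hy => (hK ⟨y, hy, rfl⟩).trans (le_max_left _ _)) hx0 hx'
      simpa [Real.norm_eq_abs] using this
    obtain ⟨K1, hK1, hK1'⟩ := aux lam₂ h2.lam_smooth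
    obtain ⟨K2, hK2, hK2'⟩ := aux mu₂ h2.mu_smooth
    refine ⟨K1 + K2 + 1, by linarith, fun x hx => ⟨(hK1' x hx).trans ?_, (hK2' x hx).trans ?_⟩⟩
    · exact mul_le_mul_of_nonneg_right (by linarith) (norm_nonneg _)
    · exact mul_le_mul_of_nonneg_right (by linarith) (norm_nonneg _)
  obtain ⟨K, hK, hKx⟩ := hLip
  refine ⟨25 * K ^ 2 / c, by positivity, ?_⟩
  intro Γ hΓ hfroz
  set g : H1 Ω := smoothH1 hb Γ hΓ with hg
  have hgder : g.der = fun i j => pd i (Γ j) := rfl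
  obtain ⟨u1, hu1t, hu1⟩ := Exist.Rough.exists_dirichlet ho hb h1 g
  have hDN1 : DN Ω lam₁ mu₁ g g (form Ω lam₁ mu₁ u1.der g.der) := ⟨u1, hu1t, hu1, rfl⟩
  obtain ⟨u2, hu2t, hu2, hr⟩ := (hS g g _).mp hDN1
  have cl1 := h1.lam_smooth.continuous
  have cm1 := h1.mu_smooth.continuous
  have cl2 := h2.lam_smooth.continuous
  have cm2 := h2.mu_smooth.continuous
  have mg : MemG Ω g.der := g.der_mem
  have mu1' : MemG Ω u1.der := u1.der_mem
  have mu2' : MemG Ω u2.der := u2.der_mem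
  have o1 : form Ω lam₁ mu₁ u1.der u1.der = form Ω lam₁ mu₁ u1.der g.der :=
    form_trace hm hb cl1 cm1 mu1' hu1 hu1t
  have o2 : form Ω lam₂ mu₂ u2.der u2.der = form Ω lam₂ mu₂ u2.der g.der :=
    form_trace hm hb cl2 cm2 mu2' hu2 hu2t
  have sq0 : ∀ D : Fin 3 → Fin 3 → E3 → ℝ, 0 ≤ ∑ i, ∑ j, ∫ x in Ω, (D i j x) ^ 2 := fun D =>
    Finset.sum_nonneg fun i _ => Finset.sum_nonneg fun j _ => integral_nonneg fun _ => sq_nonneg _
  -- Dirichlet principle in medium 1
  have m1 : form Ω lam₁ mu₁ u1.der g.der ≤ form Ω lam₁ mu₁ g.der g.der := by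
    have hp : 0 ≤ form Ω lam₁ mu₁ (fun i j x => g.der i j x - u1.der i j x)
        (fun i j x => g.der i j x - u1.der i j x) :=
      (mul_nonneg hc1.le (sq0 _)).trans (coer_diff hm hb cl1 cm1 hco1 (sameTrace_refl g) hu1t)
    rw [form_sub_right hm hb cl1 cm1 (mg.sub mu1') mg mu1', form_sub_left hm hb cl1 cm1 mg mg mu1',
      form_sub_left hm hb cl1 cm1 mu1' mg mu1', form_symm Ω lam₁ mu₁ g.der u1.der, o1] at hp
    linarith
  -- Pythagoras in medium 2
  have mz : MemG Ω (fun i j x => u2.der i j x - g.der i j x) := mu2'.sub mg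
  have p2 : form Ω lam₂ mu₂ g.der g.der = form Ω lam₂ mu₂ u2.der g.der +
      form Ω lam₂ mu₂ (fun i j x => u2.der i j x - g.der i j x)
        (fun i j x => u2.der i j x - g.der i j x) := by
    rw [form_sub_right hm hb cl2 cm2 mz mu2' mg, form_sub_left hm hb cl2 cm2 mu2' mu2' mg,
      form_sub_left hm hb cl2 cm2 mg mu2' mg, form_symm Ω lam₂ mu₂ g.der u2.der, o2]
    ring
  -- the correction
  have z1 : form Ω lam₂ mu₂ (fun i j x => u2.der i j x - g.der i j x)
        (fun i j x => u2.der i j x - g.der i j x) =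
      - form Ω (fun x => lam₂ x - lam₂ x0) (fun x => mu₂ x - mu₂ x0) g.der
        (fun i j x => u2.der i j x - g.der i j x) := by
    have hfr : form Ω (fun _ => lam₂ x0) (fun _ => mu₂ x0) g.der u2.der =
        form Ω (fun _ => lam₂ x0) (fun _ => mu₂ x0) g.der g.der :=
      form_trace hm hb continuous_const continuous_const mg hfroz hu2t
    rw [form_coef_sub hm hb cl2 cm2 continuous_const continuous_const mg mz,
      form_sub_right hm hb continuous_const continuous_const mg mu2' mg,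
      form_sub_right hm hb cl2 cm2 mg mu2' mg,
      form_sub_right hm hb cl2 cm2 mz mu2' mg, form_sub_left hm hb cl2 cm2 mu2' mu2' mg,
      form_sub_left hm hb cl2 cm2 mg mu2' mg, form_symm Ω lam₂ mu₂ g.der u2.der, o2, hfr]
    ring
  have hcz : c * ∑ i, ∑ j, ∫ x in Ω, (u2.der i j x - g.der i j x) ^ 2 ≤
      form Ω lam₂ mu₂ (fun i j x => u2.der i j x - g.der i j x)
        (fun i j x => u2.der i j x - g.der i j x) :=
    coer_diff hm hb cl2 cm2 hco2 hu2t (sameTrace_refl g)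
  set Z := fun i j x => u2.der i j x - g.der i j x with hZ
  have iE := eq2_int mz
  have hcE : c * (∫ x in Ω, eq2 (fun i j => Z i j x)) ≤ form Ω lam₂ mu₂ Z Z := by
    refine le_trans (mul_le_mul_of_nonneg_left ?_ hc.le) hcz
    have hs : ∀ i j, Integrable (fun x => (Z i j x) ^ 2) (volume.restrict Ω) := fun i j =>
      sq_int' (mz i j)
    have hSI : Integrable (fun x => ∑ i, ∑ j, (Z i j x) ^ 2) (volume.restrict Ω) :=
      integrable_finsetSum _ fun i _ => integrable_finsetSum _ fun j _ => hs i j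
    have e : ∑ i, ∑ j, ∫ x in Ω, (Z i j x) ^ 2 = ∫ x in Ω, ∑ i, ∑ j, (Z i j x) ^ 2 := by
      rw [integral_finsetSum _ fun i _ => integrable_finsetSum _ fun j _ => hs i j]
      exact Finset.sum_congr rfl fun i _ => (integral_finsetSum _ fun j _ => hs i j).symm
    have e' : ∑ i, ∑ j, ∫ x in Ω, (u2.der i j x - g.der i j x) ^ 2 =
        ∫ x in Ω, ∑ i, ∑ j, (Z i j x) ^ 2 := e
    rw [e']
    exact integral_mono iE hSI fun x => eq2_le_sum _
  have hxsq : Integrable (fun x => ‖x - x0‖ ^ 2 * eq2 (fun i j => g.der i j x))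
      (volume.restrict Ω) := by
    obtain ⟨M, hM0, hM⟩ := coef_bdd hb (f := fun x => ‖x - x0‖ ^ 2) (by fun_prop)
    refine (eq2_int mg).bdd_mul (c := M) (by fun_prop) ?_
    filter_upwards [ae_restrict_mem hm] with x hx
    exact hM x (subset_closure hx)
  have z2 : form Ω lam₂ mu₂ Z Z ≤ 25 * K ^ 2 / (2 * c) *
      (∫ x in Ω, ‖x - x0‖ ^ 2 * eq2 (fun i j => g.der i j x)) +
      c / 2 * ∫ x in Ω, eq2 (fun i j => Z i j x) := by
    have hb1 : form Ω lam₂ mu₂ Z Z ≤ ∫ x in Ω,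
        (25 * K ^ 2 / (2 * c) * (‖x - x0‖ ^ 2 * eq2 (fun i j => g.der i j x)) +
          c / 2 * eq2 (fun i j => Z i j x)) := by
      rw [z1, form_eq, ← integral_neg]
      apply setIntegral_mono_on
      · exact (form_int hm hb (cl2.sub continuous_const) (cm2.sub continuous_const) mg mz).neg
      · exact (hxsq.const_mul _).add (iE.const_mul _)
      · exact hm
      · intro x hx
        obtain ⟨k1, k2⟩ := hKx x hx
        have hη : 0 < c / 5 := by positivity
        have e1 := fq_bound _ _ (K * ‖x - x0‖) k1 k2 (fun i j => g.der i j x)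
          (fun i j => Z i j x) (c / 5) hη
        have e3 := neg_le_of_abs_le e1
        have e4 : 5 * (K * ‖x - x0‖) ^ 2 / (2 * (c / 5)) = 25 * K ^ 2 / (2 * c) * ‖x - x0‖ ^ 2 := by
          field_simp
          ring
        rw [e4] at e3
        linarith only [e3]
    refine hb1.trans (le_of_eq ?_)
    have h5 := integral_add (hxsq.const_mul (25 * K ^ 2 / (2 * c))) (iE.const_mul (c / 2))
    rw [h5, integral_const_mul, integral_const_mul]
  have z3 : form Ω lam₂ mu₂ Z Z ≤ 25 * K ^ 2 / c *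
      (∫ x in Ω, ‖x - x0‖ ^ 2 * eq2 (fun i j => g.der i j x)) := by
    have e : 25 * K ^ 2 / c * (∫ x in Ω, ‖x - x0‖ ^ 2 * eq2 (fun i j => g.der i j x)) =
      2 * (25 * K ^ 2 / (2 * c) * (∫ x in Ω, ‖x - x0‖ ^ 2 * eq2 (fun i j => g.der i j x))) := by
      field_simp
    rw [e]
    linarith only [z2, hcE]
  have hfin : (∫ x in Ω, fq (lam₁ x - lam₂ x) (mu₁ x - mu₂ x) (fun i j => pd i (Γ j) x)
          (fun i j => pd i (Γ j) x)) = form Ω lam₁ mu₁ g.der g.der - form Ω lam₂ mu₂ g.der g.der := by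
    rw [← form_coef_sub hm hb cl1 cm1 cl2 cm2 mg mg]
    rfl
  rw [hfin]
  have : (∫ x in Ω, ‖x - x0‖ ^ 2 * eq2 (fun i j => pd i (Γ j) x)) =
    ∫ x in Ω, ‖x - x0‖ ^ 2 * eq2 (fun i j => g.der i j x) := rfl
  rw [this]
  linarith only [z3, p2, m1, hr]

end Vale.Agent.P136.BD.Rough
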