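import Vale.Agent.P136.Statement

open MeasureTheory Filter Topology
open scoped ContDiff InnerProductSpace

namespace Vale.Agent.P136.Rough

open Vale.Agent.P136.Elasticity

/-- Smooth Lame moduli with `μ > 0` and `λ + μ > 0` on the closure of `Ω`. This is weaker than
`μ > 0`, `3 λ + 2 μ > 0`; the bulk modulus may be zero or negative. -/
def Elliptic (Ω : Set E3) (lam mu : E3 → ℝ) : Prop :=
  Smooth lam ∧ Smooth mu ∧ ∀ x ∈ closure Ω, 0 < mu x ∧ 0 < lam x + mu x

/-- The elastic energy is coercive on the smooth displacement fields with compact support in `Ω`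
(hence on `H¹₀(Ω; ℝ³)`), so that the Dirichlet problem is well posed. -/
def Coercive (Ω : Set E3) (lam mu : E3 → ℝ) : Prop :=
  ∃ c > 0, ∀ φ : Fin 3 → E3 → ℝ, (∀ j, IsTest Ω (φ j)) →
    c * ∑ i, ∑ j, integ Ω (fun x => (pd i (φ j) x) ^ 2) ≤
      form Ω lam mu (fun i j => pd i (φ j)) (fun i j => pd i (φ j))

/-- The set `Ω` has a tangent plane at `x` and lies on one side of it, to first order: for a unit
vector `n` and every `ε > 0`, the points `y` near `x` with `⟪n, y - x⟫ < - ε |y - x|` are in `Ω`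
and those with `⟪n, y - x⟫ > ε |y - x|` are not. -/
def TangentPoint (Ω : Set E3) (x : E3) : Prop :=
  ∃ n : E3, ‖n‖ = 1 ∧ ∀ ε > 0, ∀ᶠ y in 𝓝 x,
    (⟪n, y - x⟫_ℝ < -(ε * ‖y - x‖) → y ∈ Ω) ∧ (ε * ‖y - x‖ < ⟪n, y - x⟫_ℝ → y ∉ Ω)

/-- A bounded open set whose boundary has a tangent plane, with the set on one side of it, at a
dense set of its points. No connectedness and no other regularity is required. -/
structure TangentDomain (Ω : Set E3) : Prop where
  isOpen : IsOpen Ω
  isBounded : Bornology.IsBounded Ω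
  dense : frontier Ω ⊆ closure {x | TangentPoint Ω x}

/-- A bounded open set which, near each boundary point, lies below the graph of a Lipschitz
function: `e` is the vertical direction and `h` the graph function, evaluated at the orthogonal
projection `y - ⟪e, y⟫ e` of `y` to the plane orthogonal to `e`. -/
structure LipschitzDomain (Ω : Set E3) : Prop where
  isOpen : IsOpen Ω
  isBounded : Bornology.IsBounded Ω
  lipschitz : ∀ x ∈ frontier Ω, ∃ U ∈ 𝓝 x, ∃ e : E3, ‖e‖ = 1 ∧ ∃ (K : NNReal) (h : E3 → ℝ),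
    LipschitzWith K h ∧ ∀ y ∈ U, (y ∈ Ω ↔ ⟪e, y⟫_ℝ < h (y - ⟪e, y⟫_ℝ • e))

/-- Every pair (boundary displacement, boundary traction) of a weak solution for `(lam₁, mu₁)` is
the pair of a weak solution for `(lam₂, mu₂)`. No solvability of the Dirichlet problem is
assumed. -/
def CauchyDataSubset (Ω : Set E3) (lam₁ mu₁ lam₂ mu₂ : E3 → ℝ) : Prop :=
  ∀ u : H1 Ω, WeakSol lam₁ mu₁ u → ∃ v : H1 Ω, SameTrace v u ∧ WeakSol lam₂ mu₂ v ∧
    ∀ g : H1 Ω, form Ω lam₂ mu₂ v.der g.der = form Ω lam₁ mu₁ u.der g.der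

/-- The two pairs of moduli and their gradients agree on the boundary of `Ω`. -/
def AgreeToFirstOrder (Ω : Set E3) (lam₁ mu₁ lam₂ mu₂ : E3 → ℝ) : Prop :=
  ∀ x ∈ frontier Ω, lam₁ x = lam₂ x ∧ mu₁ x = mu₂ x ∧
    ∀ i, pd i lam₁ x = pd i lam₂ x ∧ pd i mu₁ x = pd i mu₂ x

end Vale.Agent.P136.Rough
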