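import Vale.Agent.P136.H222.Defs
import Vale.Agent.P136.Bdl.B5

set_option linter.all false

/-! The Dirichlet problem for the Lame system under coercivity on `H¹₀`. -/

open MeasureTheory Filter Topology
open scoped ContDiff InnerProductSpace

namespace Vale.Agent.P136.Exist.Rough



/-- The data of a coercive pair on a bounded open set. -/
structure Co (Ω : Set E3) (lam mu : E3 → ℝ) (c M R : ℝ) : Prop where
  meas : MeasurableSet Ω
  hl : Continuous lam
  hm : Continuous mu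
  c_pos : 0 < c
  hlM : ∀ x ∈ Ω, |lam x| ≤ M
  hmM : ∀ x ∈ Ω, |mu x| ≤ M
  hR : ∀ x ∈ Ω, ‖x‖ ≤ R
  coer : ∀ φ : Fin 3 → E3 → ℝ, (∀ j, IsTest Ω (φ j)) →
    c * ∑ i, ∑ j, ∫ x in Ω, (pd i (φ j) x) ^ 2 ≤
      form Ω lam mu (fun i j => pd i (φ j)) (fun i j => pd i (φ j))

/-- internal form of the hypotheses: smooth, coercive. -/
structure SC (Ω : Set E3) (lam mu : E3 → ℝ) : Prop where
  lam_smooth : ContDiff ℝ ∞ lam
  mu_smooth : ContDiff ℝ ∞ mu
  mu_pos : ∀ x ∈ closure Ω, 0 < mu x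
  sum_pos : ∀ x ∈ closure Ω, 0 < lam x + mu x
  coer : ∃ c > 0, ∀ φ : Fin 3 → E3 → ℝ, (∀ j, IsTest Ω (φ j)) →
    c * ∑ i, ∑ j, ∫ x in Ω, (pd i (φ j) x) ^ 2 ≤
      form Ω lam mu (fun i j => pd i (φ j)) (fun i j => pd i (φ j))

lemma exists_co {Ω : Set E3} {lam mu : E3 → ℝ} (hΩ : IsOpen Ω) (hb : Bornology.IsBounded Ω)
    (ha : SC Ω lam mu) : ∃ c M R, Co Ω lam mu c M R := by
  obtain ⟨c, hc, h⟩ := ha.coer
  have hK : IsCompact (closure Ω) := hb.isCompact_closure
  have hl : Continuous lam := ha.lam_smooth.continuous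
  have hm : Continuous mu := ha.mu_smooth.continuous
  obtain ⟨M₁, hM₁⟩ := hK.exists_bound_of_continuousOn hl.continuousOn
  obtain ⟨M₂, hM₂⟩ := hK.exists_bound_of_continuousOn hm.continuousOn
  obtain ⟨R, hR⟩ := hb.exists_norm_le
  exact ⟨c, max 0 (max M₁ M₂), R, hΩ.measurableSet, hl, hm, hc,
    fun x hx => (hM₁ x (subset_closure hx)).trans ((le_max_left _ _).trans (le_max_right _ _)),
    fun x hx => (hM₂ x (subset_closure hx)).trans ((le_max_right _ _).trans (le_max_right _ _)),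
    hR, h⟩

section coef

variable {Ω : Set E3} {lam mu : E3 → ℝ} {c M R : ℝ}

lemma Co.korn (C : Co Ω lam mu c M R) {φ : Fin 3 → E3 → ℝ} (h : ∀ j, IsTest Ω (φ j)) :
    ∑ i, ∑ j, ∫ x, (pd i (φ j) x) ^ 2 ≤
      1 / c * form Ω lam mu (fun i j => pd i (φ j)) (fun i j => pd i (φ j)) := by
  have h1 := C.coer φ h
  have h2 : ∑ i, ∑ j, ∫ x in Ω, (pd i (φ j) x) ^ 2 = ∑ i, ∑ j, ∫ x, (pd i (φ j) x) ^ 2 :=
    Finset.sum_congr rfl fun i _ => Finset.sum_congr rfl fun j _ => int_test_sq_eq h i j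
  rw [h2] at h1
  have hc := C.c_pos
  rw [one_div, inv_mul_eq_div, le_div_iff₀ hc]
  linarith

lemma Co.form_nonneg_test (C : Co Ω lam mu c M R) {φ : Fin 3 → E3 → ℝ}
    (h : ∀ j, IsTest Ω (φ j)) :
    0 ≤ form Ω lam mu (fun i j => pd i (φ j)) (fun i j => pd i (φ j)) := by
  refine le_trans (mul_nonneg C.c_pos.le ?_) (C.coer φ h)
  exact Finset.sum_nonneg fun i _ => Finset.sum_nonneg fun j _ =>
    integral_nonneg fun _ => sq_nonneg _

lemma Co.grad_le (C : Co Ω lam mu c M R) {φ : Fin 3 → E3 → ℝ} (h : ∀ j, IsTest Ω (φ j))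
    (i j : Fin 3) : ∫ x, (pd i (φ j) x) ^ 2 ≤
      1 / c * form Ω lam mu (fun i j => pd i (φ j)) (fun i j => pd i (φ j)) := by
  refine le_trans ?_ (C.korn h)
  have h0 : ∀ i j, 0 ≤ ∫ x, (pd i (φ j) x) ^ 2 := fun i j => integral_nonneg fun _ => sq_nonneg _
  exact (Finset.single_le_sum (f := fun j => ∫ x, (pd i (φ j) x) ^ 2) (fun j _ => h0 i j)
    (Finset.mem_univ j)).trans (Finset.single_le_sum
      (f := fun i => ∑ j, ∫ x, (pd i (φ j) x) ^ 2)
      (fun i _ => Finset.sum_nonneg fun j _ => h0 i j) (Finset.mem_univ i))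

lemma Co.val_le (C : Co Ω lam mu c M R) {φ : Fin 3 → E3 → ℝ} (h : ∀ j, IsTest Ω (φ j))
    (j : Fin 3) : ∫ x, (φ j x) ^ 2 ≤
      4 * R ^ 2 * (1 / c * form Ω lam mu (fun i j => pd i (φ j)) (fun i j => pd i (φ j))) :=
  (poincare_test C.hR (h j)).trans
    (mul_le_mul_of_nonneg_left (C.grad_le h 0 j) (by positivity))

end coef

section lim

variable {Ω : Set E3} {lam mu : E3 → ℝ} {c M R : ℝ}

/-- completeness: test fields which are Cauchy for the form converge. -/
lemma Co.exists_lim (C : Co Ω lam mu c M R) {φ : ℕ → Fin 3 → E3 → ℝ}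
    (h : ∀ n j, IsTest Ω (φ n j))
    (hC : ∀ ε > 0, ∃ N, ∀ n ≥ N, ∀ k ≥ N,
      form Ω lam mu (fun i j => pd i (fun x => φ n j x - φ k j x))
        (fun i j => pd i (fun x => φ n j x - φ k j x)) < ε) :
    ∃ (v : Fin 3 → E3 → ℝ) (dv : Fin 3 → Fin 3 → E3 → ℝ), RH10 Ω v dv ∧
      (∀ j, Tendsto (fun n => ∫ x, (φ n j x - v j x) ^ 2) atTop (𝓝 0)) ∧
      (∀ i j, Tendsto (fun n => ∫ x, (pd i (φ n j) x - dv i j x) ^ 2) atTop (𝓝 0)) := by
  have hc := C.c_pos
  have hsub : ∀ n k j, IsTest Ω (fun x => φ n j x - φ k j x) := fun n k j =>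
    IsTest.sub (h n j) (h k j)
  have hv : ∀ j, ∃ g : E3 → ℝ, MemLp g 2 ∧
      Tendsto (fun n => N2 (fun x => φ n j x - g x)) atTop (𝓝 0) := by
    intro j
    refine exists_limit (fun n => test_memLp (h n j)) fun ε hε => ?_
    obtain ⟨N, hN⟩ := hC (ε / (4 * R ^ 2 * (1 / c) + 1)) (by positivity)
    refine ⟨N, fun n hn k hk => ?_⟩
    have h1 := C.val_le (φ := fun j x => φ n j x - φ k j x) (hsub n k) j
    have h2 := hN n hn k hk
    have h0 := C.form_nonneg_test (φ := fun j x => φ n j x - φ k j x) (hsub n k)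
    rw [lt_div_iff₀ (by (clear * - hc; positivity))] at h2
    show ∫ x, (φ n j x - φ k j x) ^ 2 < ε
    linarith only [h0, h2, h1]
  have hdv : ∀ i j, ∃ g : E3 → ℝ, MemLp g 2 ∧
      Tendsto (fun n => N2 (fun x => pd i (φ n j) x - g x)) atTop (𝓝 0) := by
    intro i j
    refine exists_limit (fun n => test_pd_memLp (h n j) i) fun ε hε => ?_
    obtain ⟨N, hN⟩ := hC (ε / (1 / c + 1)) (by positivity)
    refine ⟨N, fun n hn k hk => ?_⟩
    have h1 := C.grad_le (φ := fun j x => φ n j x - φ k j x) (hsub n k) i j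
    have h2 := hN n hn k hk
    have h0 := C.form_nonneg_test (φ := fun j x => φ n j x - φ k j x) (hsub n k)
    rw [lt_div_iff₀ (by positivity)] at h2
    have e : N2 (fun x => pd i (φ n j) x - pd i (φ k j) x) =
        ∫ x, (pd i (fun x => φ n j x - φ k j x) x) ^ 2 := by
      unfold N2
      congr 1; funext x
      rw [pd_sub' (h n j).1 (h k j).1]
    rw [e]
    have : ∫ x, (pd i (fun x => φ n j x - φ k j x) x) ^ 2 ≤ 1 / c *
      form Ω lam mu (fun i j => pd i (fun x => φ n j x - φ k j x))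
        (fun i j => pd i (fun x => φ n j x - φ k j x)) := h1
    linarith only [this, h0, h2]
  choose v hvm hvt using hv
  choose dv hdm hdt using hdv
  have ind : ∀ {a : ℕ → E3 → ℝ} {b : E3 → ℝ}, (∀ n, MemLp (a n) 2 volume) → MemLp b 2 volume →
      (∀ n x, x ∉ Ω → a n x = 0) → Tendsto (fun n => N2 (fun x => a n x - b x)) atTop (𝓝 0) →
      Tendsto (fun n => ∫ x, (a n x - Ω.indicator b x) ^ 2) atTop (𝓝 0) := by
    intro a b ha hb hz ht
    refine squeeze_zero (fun n => integral_nonneg fun _ => sq_nonneg _) (fun n => ?_) ht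
    refine integral_mono (sq_int ((ha n).sub (hb.indicator C.meas)))
      (sq_int ((ha n).sub hb)) fun x => ?_
    show (a n x - Ω.indicator b x) ^ 2 ≤ (a n x - b x) ^ 2
    by_cases hx : x ∈ Ω
    · rw [Set.indicator_of_mem hx]
    · rw [Set.indicator_of_notMem hx, hz n x hx]
      simp only [sub_zero, ne_eq, OfNat.ofNat_ne_zero, not_false_eq_true, zero_pow]
      exact sq_nonneg _
  have t1 : ∀ j, Tendsto (fun n => ∫ x, (φ n j x - Ω.indicator (v j) x) ^ 2) atTop (𝓝 0) :=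
    fun j => ind (fun n => test_memLp (h n j)) (hvm j) (fun n x hx => test_zero (h n j) hx) (hvt j)
  have t2 : ∀ i j, Tendsto (fun n => ∫ x, (pd i (φ n j) x - Ω.indicator (dv i j) x) ^ 2)
      atTop (𝓝 0) :=
    fun i j => ind (fun n => test_pd_memLp (h n j) i) (hdm i j)
      (fun n x hx => test_pd_zero (h n j) i hx) (hdt i j)
  refine ⟨fun j => Ω.indicator (v j), fun i j => Ω.indicator (dv i j), ⟨?_, ?_, ?_, ?_, ?_⟩,
    t1, t2⟩
  · exact fun j => (hvm j).indicator C.meas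
  · exact fun i j => (hdm i j).indicator C.meas
  · exact fun j x hx => Set.indicator_of_notMem hx _
  · exact fun i j x hx => Set.indicator_of_notMem hx _
  · exact ⟨φ, h, t1, t2⟩


end lim

section minimize

variable {Ω : Set E3} {lam mu : E3 → ℝ} {c M R : ℝ}

/-- Existence in `H¹₀` for a right hand side in divergence form. -/
theorem Co.exists_H10 (C : Co Ω lam mu c M R) {G : Fin 3 → Fin 3 → E3 → ℝ}
    (hG : ∀ i j, MemLp (G i j) 2 (volume.restrict Ω)) :
    ∃ (v : Fin 3 → E3 → ℝ) (dv : Fin 3 → Fin 3 → E3 → ℝ), RH10 Ω v dv ∧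
      ∀ φ : Fin 3 → E3 → ℝ, (∀ j, IsTest Ω (φ j)) →
        form Ω lam mu dv (fun i j => pd i (φ j)) = pr Ω G (fun i j => pd i (φ j)) := by
  have hc := C.c_pos
  let X := {φ : Fin 3 → E3 → ℝ // ∀ j, IsTest Ω (φ j)}
  let gr : X → Fin 3 → Fin 3 → E3 → ℝ := fun φ i j => pd i (φ.1 j)
  have hgr : ∀ (φ : X) i j, MemLp (gr φ i j) 2 (volume.restrict Ω) := fun φ i j =>
    test_grad_memLp φ.2 i j
  let comb : ℝ → ℝ → X → X → X := fun s t φ ψ =>
    ⟨fun j x => s * φ.1 j x + t * ψ.1 j x, fun j =>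
      IsTest.add (IsTest.const_mul s (φ.2 j)) (IsTest.const_mul t (ψ.2 j))⟩
  have hcomb : ∀ s t φ ψ, gr (comb s t φ ψ) = fun i j x => s * gr φ i j x + t * gr ψ i j x := by
    intro s t φ ψ
    funext i j x
    exact pd_add_mul (φ.2 j).1 (ψ.2 j).1 s t i x
  let F : X → ℝ := fun φ => form Ω lam mu (gr φ) (gr φ)
  let J : X → ℝ := fun φ => F φ - 2 * pr Ω G (gr φ)
  have hF0 : ∀ φ, 0 ≤ F φ := fun φ => C.form_nonneg_test φ.2
  have hFc : ∀ s t φ ψ, F (comb s t φ ψ) =
      s ^ 2 * F φ + 2 * s * t * form Ω lam mu (gr φ) (gr ψ) + t ^ 2 * F ψ := by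
    intro s t φ ψ
    show form Ω lam mu (gr (comb s t φ ψ)) (gr (comb s t φ ψ)) = _
    rw [hcomb]
    exact form_comb C.meas C.hl C.hm C.hlM C.hmM (hgr φ) (hgr ψ) s t
  have hPc : ∀ s t φ ψ, pr Ω G (gr (comb s t φ ψ)) = s * pr Ω G (gr φ) + t * pr Ω G (gr ψ) := by
    intro s t φ ψ
    rw [hcomb]
    exact pr_comb hG (hgr φ) (hgr ψ) s t
  -- lower bound
  obtain ⟨K, hK0, hK⟩ : ∃ K : ℝ, 0 ≤ K ∧ ∀ φ, (pr Ω G (gr φ)) ^ 2 ≤ K * F φ := by
    have h0 : 0 ≤ ∑ i, ∑ j, ∫ x in Ω, (G i j x) ^ 2 :=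
      Finset.sum_nonneg fun _ _ => Finset.sum_nonneg fun _ _ => integral_nonneg fun _ => sq_nonneg _
    refine ⟨9 * (∑ i, ∑ j, ∫ x in Ω, (G i j x) ^ 2) * (1 / c), by (clear * - hc; positivity), fun φ => ?_⟩
    refine (pr_sq_le hG (hgr φ)).trans ?_
    rw [mul_assoc (9 * _) (1 / c)]
    refine mul_le_mul_of_nonneg_left ?_ (by (clear * -; positivity))
    have h1 := C.korn φ.2
    have h2 : ∑ i, ∑ j, ∫ x in Ω, (gr φ i j x) ^ 2 = ∑ i, ∑ j, ∫ x, (pd i (φ.1 j) x) ^ 2 :=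
      Finset.sum_congr rfl fun i _ => Finset.sum_congr rfl fun j _ => int_test_sq_eq φ.2 i j
    rw [h2]
    exact h1
  have hJ : ∀ φ, -K ≤ J φ := by
    intro φ
    have h1 := hK φ
    have h2 := hF0 φ
    have h3 : (2 * pr Ω G (gr φ)) ^ 2 ≤ (F φ + K) ^ 2 := by linarith only [sq_nonneg (F φ - K), h1]
    have h4 := (abs_le_of_sq_le_sq' h3 (by positivity)).2
    show -K ≤ F φ - 2 * pr Ω G (gr φ)
    linarith
  have hbdd : BddBelow (Set.range J) := ⟨-K, by rintro _ ⟨φ, rfl⟩; exact hJ φ⟩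
  have : Nonempty X := ⟨⟨fun _ _ => 0, fun _ => IsTest.zero Ω⟩⟩
  set m := ⨅ φ, J φ with hm
  have hm_le : ∀ φ, m ≤ J φ := fun φ => ciInf_le hbdd φ
  have hex : ∀ n : ℕ, ∃ φ : X, J φ < m + 1 / ((n : ℝ) + 1) := fun n =>
    exists_lt_of_ciInf_lt (lt_add_of_pos_right m (by (clear * -; positivity)))
  choose φ hφ using hex
  -- the sequence is Cauchy
  have hpar : ∀ a b : X, F (comb 1 (-1) a b) ≤ 2 * J a + 2 * J b - 4 * m := by
    intro a b
    have h1 := hFc 1 (-1) a b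
    have h2 := hFc (1 / 2) (1 / 2) a b
    have h3 := hPc (1 / 2) (1 / 2) a b
    have h4 := hm_le (comb (1 / 2) (1 / 2) a b)
    have h5 : J (comb (1 / 2) (1 / 2) a b) =
      F (comb (1 / 2) (1 / 2) a b) - 2 * pr Ω G (gr (comb (1 / 2) (1 / 2) a b)) := rfl
    have h6 : J a = F a - 2 * pr Ω G (gr a) := rfl
    have h7 : J b = F b - 2 * pr Ω G (gr b) := rfl
    rw [h5, h2, h3] at h4
    rw [h1, h6, h7]
    linarith only [h4]
  have hCau : ∀ ε > 0, ∃ N, ∀ n ≥ N, ∀ k ≥ N,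
      form Ω lam mu (fun i j => pd i (fun x => (φ n).1 j x - (φ k).1 j x))
        (fun i j => pd i (fun x => (φ n).1 j x - (φ k).1 j x)) < ε := by
    intro ε hε
    obtain ⟨N, hN⟩ := exists_nat_gt (4 / ε)
    refine ⟨N, fun n hn k hk => ?_⟩
    have e : (fun i j => pd i (fun x => (φ n).1 j x - (φ k).1 j x)) =
        gr (comb 1 (-1) (φ n) (φ k)) := by
      rw [hcomb]
      funext i j x
      rw [pd_sub' ((φ n).2 j).1 ((φ k).2 j).1]
      show _ = 1 * pd i ((φ n).1 j) x + -1 * pd i ((φ k).1 j) x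
      ring
    rw [e]
    have h1 := hpar (φ n) (φ k)
    have h2 := hφ n
    have h3 := hφ k
    have hb : ∀ n : ℕ, N ≤ n → 1 / ((n : ℝ) + 1) ≤ ε / 4 := by
      intro n hn
      have hNn : (N : ℝ) ≤ n := by exact_mod_cast hn
      have hNp : (0 : ℝ) < N := lt_trans (by positivity) hN
      rw [div_lt_iff₀ hε] at hN
      rw [div_le_div_iff₀ (by positivity) (by norm_num)]
      (by_contra nlg; linarith only [nlg, mul_pos (sub_pos.2 hN) (sub_pos.2 hNp), mul_nonneg (le_of_lt (sub_pos.2 hN)) (sub_nonneg.2 hNn), mul_pos (sub_pos.2 hε) (sub_pos.2 hNp), mul_pos (sub_pos.2 (not_le.1 nlg)) (sub_pos.2 hNp), hNn])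
    have h4 := hb n hn
    have h5 := hb k hk
    show F (comb 1 (-1) (φ n) (φ k)) < ε
    linarith only [h5, h4, h3, h2, h1]
  obtain ⟨v, dv, hv, ht1, ht2⟩ := C.exists_lim (fun n j => (φ n).2 j) hCau
  refine ⟨v, dv, hv, fun ψ hψ => ?_⟩
  -- the Euler equation
  have hdvm : ∀ i j, MemLp (dv i j) 2 (volume.restrict Ω) := fun i j =>
    (hv.der_mem i j).mono_measure Measure.restrict_le_self
  let ψX : X := ⟨ψ, hψ⟩
  have ht2' : ∀ i j, Tendsto (fun n => ∫ x in Ω, (gr (φ n) i j x - dv i j x) ^ 2)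
      atTop (𝓝 0) := by
    intro i j
    refine squeeze_zero (fun n => integral_nonneg fun _ => sq_nonneg _) (fun n => ?_) (ht2 i j)
    exact setIntegral_le_integral (sq_int ((test_pd_memLp ((φ n).2 j) i).sub (hv.der_mem i j)))
      (Eventually.of_forall fun _ => sq_nonneg _)
  have htf := form_tendsto C.meas C.hl C.hm C.hlM C.hmM (fun n => hgr (φ n)) hdvm (hgr ψX) ht2'
  set b := form Ω lam mu dv (gr ψX) - pr Ω G (gr ψX) with hb
  have hlim : Tendsto (fun n => form Ω lam mu (gr (φ n)) (gr ψX) - pr Ω G (gr ψX)) atTop (𝓝 b) :=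
    htf.sub_const _
  have hkey : ∀ t : ℝ, 0 ≤ 2 * t * b + t ^ 2 * F ψX := by
    intro t
    have h1 : ∀ n : ℕ, -(1 / ((n : ℝ) + 1)) ≤
        2 * t * (form Ω lam mu (gr (φ n)) (gr ψX) - pr Ω G (gr ψX)) + t ^ 2 * F ψX := by
      intro n
      have h2 := hFc 1 t (φ n) ψX
      have h3 := hPc 1 t (φ n) ψX
      have h4 := hm_le (comb 1 t (φ n) ψX)
      have h5 : J (comb 1 t (φ n) ψX) =
        F (comb 1 t (φ n) ψX) - 2 * pr Ω G (gr (comb 1 t (φ n) ψX)) := rfl
      have h6 : J (φ n) = F (φ n) - 2 * pr Ω G (gr (φ n)) := rfl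
      have h7 := hφ n
      rw [h5, h2, h3] at h4
      rw [h6] at h7
      linarith
    have h8 : Tendsto (fun n : ℕ => -(1 / ((n : ℝ) + 1))) atTop (𝓝 0) := by
      have := tendsto_one_div_add_atTop_nhds_zero_nat (𝕜 := ℝ)
      simpa using this.neg
    exact le_of_tendsto_of_tendsto' h8 ((hlim.const_mul (2 * t)).add_const _) h1
  have hb0 : b = 0 := by
    have h1 := hkey (-b / (F ψX + 1))
    have h2 := hF0 ψX
    have h3 : 2 * (-b / (F ψX + 1)) * b + (-b / (F ψX + 1)) ^ 2 * F ψX =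
        -(b ^ 2 * (F ψX + 2)) / (F ψX + 1) ^ 2 := by
      field_simp
      ring
    rw [h3, neg_div, neg_nonneg] at h1
    have h4 : b ^ 2 * (F ψX + 2) ≤ 0 := by
      by_contra hcon
      push Not at hcon
      exact absurd h1 (not_le.2 (by (clear * - hcon h2; positivity)))
    have h5 : b ^ 2 ≤ 0 := by linarith only [mul_nonneg (sub_nonneg.2 h2) (sq_nonneg b), h4]
    exact pow_eq_zero_iff (two_ne_zero) |>.1 (le_antisymm h5 (sq_nonneg b))
  have : form Ω lam mu dv (gr ψX) = pr Ω G (gr ψX) := by linarith [hb0]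
  exact this


end minimize

section conseq

variable {Ω : Set E3} {lam mu : E3 → ℝ} {c M R : ℝ}

/-- The Dirichlet problem. -/
theorem exists_dirichlet (hΩ : IsOpen Ω) (hb : Bornology.IsBounded Ω)
    (ha : SC Ω lam mu) (f : H1 Ω) : ∃ u : H1 Ω, SameTrace u f ∧ WeakSol lam mu u := by
  obtain ⟨c, M, R, C⟩ := exists_co hΩ hb ha
  have hst := fun i j => st_memLp C.meas C.hl C.hm C.hlM C.hmM f.der_mem i j
  obtain ⟨v, dv, hv, he⟩ := C.exists_H10
    (G := fun i j x => -1 * st (lam x) (mu x) (fun i j => f.der i j x) i j)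
    (fun i j => (hst i j).const_mul (-1))
  refine ⟨⟨fun j x => f.val j x + v j x, fun i j x => f.der i j x + dv i j x,
    fun j => (f.val_mem j).add (memLp_restrict (hv.val_mem j)),
    fun i j => (f.der_mem i j).add (memLp_restrict (hv.der_mem i j)), ?_⟩, ?_, ?_⟩
  · intro i j φ hφ
    have m1 : MemLp φ 2 (volume.restrict Ω) := memLp_restrict (test_memLp hφ)
    have m2 : MemLp (pd i φ) 2 (volume.restrict Ω) := memLp_restrict (test_pd_memLp hφ i)
    have e1 : ∫ x in Ω, (f.val j x + v j x) * pd i φ x =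
        (∫ x in Ω, f.val j x * pd i φ x) + ∫ x in Ω, v j x * pd i φ x := by
      rw [← integral_add (mul_int (f.val_mem j) m2) (mul_int (memLp_restrict (hv.val_mem j)) m2)]
      congr 1; funext x; ring
    have e2 : ∫ x in Ω, (f.der i j x + dv i j x) * φ x =
        (∫ x in Ω, f.der i j x * φ x) + ∫ x in Ω, dv i j x * φ x := by
      rw [← integral_add (mul_int (f.der_mem i j) m1)
        (mul_int (memLp_restrict (hv.der_mem i j)) m1)]
      congr 1; funext x; ring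
    have e3 : ∫ x in Ω, v j x * pd i φ x = ∫ x, v j x * pd i φ x :=
      setIntegral_test fun x hx => by rw [hv.val_zero j x hx]; simp
    have e4 : ∫ x in Ω, dv i j x * φ x = ∫ x, dv i j x * φ x :=
      setIntegral_test fun x hx => by rw [hv.der_zero i j x hx]; simp
    rw [e1, e2, f.weak i j φ hφ, e3, e4, hv.weak i j hφ.1 hφ.2.1]
    ring
  · obtain ⟨ψ, hψ, h1, h2⟩ := hv.approx
    refine ⟨ψ, hψ, fun j => ?_, fun i j => ?_⟩
    · have := restrict_tendsto (Ω := Ω) (fun n => test_memLp (hψ n j)) (hv.val_mem j) (h1 j)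
      refine this.congr fun n => ?_
      congr 1; funext x
      simp only
      ring
    · have := restrict_tendsto (Ω := Ω) (fun n => test_pd_memLp (hψ n j) i) (hv.der_mem i j)
        (h2 i j)
      refine this.congr fun n => ?_
      congr 1; funext x
      simp only
      ring
  · intro φ hφ
    have hg := test_grad_memLp hφ
    have hdv : ∀ i j, MemLp (dv i j) 2 (volume.restrict Ω) := fun i j =>
      memLp_restrict (hv.der_mem i j)
    have e1 : form Ω lam mu (fun i j x => f.der i j x + dv i j x) (fun i j => pd i (φ j)) =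
        form Ω lam mu f.der (fun i j => pd i (φ j)) +
          form Ω lam mu dv (fun i j => pd i (φ j)) := by
      have := form_comb_left C.meas C.hl C.hm C.hlM C.hmM f.der_mem hdv hg 1 1
      simpa using this
    show form Ω lam mu (fun i j x => f.der i j x + dv i j x) (fun i j => pd i (φ j)) = 0
    rw [e1, he φ hφ, form_symm, form_eq_sum C.meas C.hl C.hm C.hlM C.hmM hg f.der_mem]
    unfold pr
    rw [← Finset.sum_add_distrib]
    refine Finset.sum_eq_zero fun i _ => ?_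
    rw [← Finset.sum_add_distrib]
    refine Finset.sum_eq_zero fun j _ => ?_
    rw [← integral_add (mul_int (hg i j) (hst i j))
      (mul_int ((hst i j).const_mul (-1)) (hg i j))]
    rw [← integral_zero E3 ℝ (μ := volume.restrict Ω)]
    congr 1; funext x; ring


end conseq

end Vale.Agent.P136.Exist.Rough
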