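import Vale.Agent.P136.H222.Inner

set_option linter.all false

/-! Bridges to the public definitions, Lipschitz domains, coercive pairs. -/

open MeasureTheory Filter Topology
open scoped ContDiff InnerProductSpace

namespace Vale.Agent.P136.Rough

open Vale.Agent.P136.Exist.Rough (SC)

/-! ### tangent points -/

/-- a set which is locally `{H < 0}`, with `H` differentiable at a zero with nonzero derivative,
has a tangent plane there. -/
lemma tanAt_of_differentiable {Ω : Set E3} {x : E3} {H : E3 → ℝ} {U : Set E3} (hU : U ∈ 𝓝 x)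
    (hH : ∀ y ∈ U, (y ∈ Ω ↔ H y < 0)) (h0 : H x = 0) (hd : DifferentiableAt ℝ H x)
    (hne : fderiv ℝ H x ≠ 0) : ∃ n : E3, ‖n‖ = 1 ∧ BD.Rough.TanAt Ω x n := by
  set G : E3 := (InnerProductSpace.toDual ℝ E3).symm (fderiv ℝ H x) with hG
  have hGD : ∀ v, ⟪G, v⟫_ℝ = fderiv ℝ H x v := fun v => by
    rw [hG]; exact InnerProductSpace.toDual_symm_apply
  have hG0 : G ≠ 0 := by
    intro h
    apply hne
    ext v
    rw [← hGD, h, inner_zero_left]
    rfl
  have hGn : 0 < ‖G‖ := norm_pos_iff.2 hG0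
  refine ⟨‖G‖⁻¹ • G, by rw [norm_smul, norm_inv, norm_norm, inv_mul_cancel₀ hGn.ne'], ?_⟩
  intro ε hε
  have hlit := hd.hasFDerivAt.isLittleO.def (c := ε * ‖G‖ / 2) (by positivity)
  filter_upwards [hlit, hU] with y hy hyU
  rw [h0, sub_zero, Real.norm_eq_abs, ← hGD] at hy
  have h1 := (abs_le.1 hy).1
  have h2 := (abs_le.1 hy).2
  have hin : ⟪‖G‖⁻¹ • G, y - x⟫_ℝ = ‖G‖⁻¹ * ⟪G, y - x⟫_ℝ := real_inner_smul_left _ _ _
  rw [hin]
  have hs := norm_nonneg (y - x)
  constructor
  · intro h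
    rw [hH y hyU]
    have h3 : ⟪G, y - x⟫_ℝ < -(ε * ‖y - x‖) * ‖G‖ := by
      rw [inv_mul_eq_div, div_lt_iff₀ hGn] at h
      exact h
    have h4 : 0 ≤ ε * ‖G‖ / 2 * ‖y - x‖ := by positivity
    linarith only [h2, h3, h4]
  · intro h
    rw [hH y hyU, not_lt]
    have h3 : ε * ‖y - x‖ * ‖G‖ < ⟪G, y - x⟫_ℝ := by
      rw [inv_mul_eq_div, lt_div_iff₀ hGn] at h
      exact h
    have h4 : 0 ≤ ε * ‖G‖ / 2 * ‖y - x‖ := by positivity
    linarith only [h1, h3, h4]

lemma tangentPoint_iff {Ω : Set E3} {x : E3} :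
    TangentPoint Ω x ↔ ∃ n : E3, ‖n‖ = 1 ∧ BD.Rough.TanAt Ω x n := Iff.rfl

/-- bounded Lipschitz domains have a tangent plane at a dense set of boundary points
(Rademacher's theorem). -/
theorem LipschitzDomain.tangentDomain {Ω : Set E3} (h : LipschitzDomain Ω) : TangentDomain Ω where
  isOpen := h.isOpen
  isBounded := h.isBounded
  dense := by
    intro x hx
    obtain ⟨U, hU, e, he, K, f, hf, hyU⟩ := h.lipschitz x hx
    have hee : ⟪e, e⟫_ℝ = 1 := by rw [real_inner_self_eq_norm_sq, he]; norm_num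
    obtain ⟨W, hWU, hW, hxW⟩ := mem_nhds_iff.1 hU
    set H : E3 → ℝ := fun y => ⟪e, y⟫_ℝ - f (y - ⟪e, y⟫_ℝ • e) with hH
    have hHΩ : ∀ y ∈ W, (y ∈ Ω ↔ H y < 0) := by
      intro y hy
      rw [hyU y (hWU hy)]
      simp only [hH]
      constructor <;> intro h <;> linarith
    have hlin : LipschitzWith 1 (fun y : E3 => ⟪e, y⟫_ℝ) := by
      refine LipschitzWith.of_dist_le_mul fun a b => ?_
      rw [Real.dist_eq, ← inner_sub_right, dist_eq_norm]
      simpa [he] using abs_real_inner_le_norm e (a - b)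
    have hproj : LipschitzWith 2 (fun y : E3 => y - ⟪e, y⟫_ℝ • e) := by
      refine LipschitzWith.of_dist_le_mul fun a b => ?_
      rw [dist_eq_norm, dist_eq_norm]
      have e1 : a - ⟪e, a⟫_ℝ • e - (b - ⟪e, b⟫_ℝ • e) = (a - b) - ⟪e, a - b⟫_ℝ • e := by
        rw [inner_sub_right, sub_smul]; abel
      rw [e1]
      calc ‖(a - b) - ⟪e, a - b⟫_ℝ • e‖ ≤ ‖a - b‖ + ‖⟪e, a - b⟫_ℝ • e‖ := norm_sub_le _ _
        _ ≤ ‖a - b‖ + ‖a - b‖ := by
            gcongr
            rw [norm_smul, he, mul_one]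
            simpa [he] using abs_real_inner_le_norm e (a - b)
        _ = ((2 : NNReal) : ℝ) * ‖a - b‖ := by norm_num; ring
    have hHL : LipschitzWith (1 + K * 2) H := hlin.sub (hf.comp hproj)
    have hshift : ∀ y : E3, ∀ t : ℝ, H (y + t • e) = H y + t := by
      intro y t
      simp only [hH]
      have a1 : ⟪e, y + t • e⟫_ℝ = ⟪e, y⟫_ℝ + t := by
        rw [inner_add_right, real_inner_smul_right, hee, mul_one]
      have a2 : y + t • e - (⟪e, y⟫_ℝ + t) • e = y - ⟪e, y⟫_ℝ • e := by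
        rw [add_smul]; abel
      rw [a1, a2]; ring
    have hHc : Continuous H := hHL.continuous
    -- the base point is a zero of `H`
    have hHx : H x = 0 := by
      rw [h.isOpen.frontier_eq] at hx
      apply le_antisymm
      · by_contra hcon
        push Not at hcon
        have : W ∩ {y | 0 < H y} ∈ 𝓝 x :=
          (hW.inter (isOpen_lt continuous_const hHc)).mem_nhds ⟨hxW, hcon⟩
        obtain ⟨y, hy1, hy2⟩ := mem_closure_iff_nhds.1 hx.1 _ this
        exact absurd ((hHΩ y hy1.1).1 hy2) (not_lt.2 (le_of_lt hy1.2))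
      · by_contra hcon
        push Not at hcon
        exact hx.2 ((hHΩ x hxW).2 hcon)
    -- differentiability is dense
    have hae : ∀ᵐ y ∂(volume : Measure E3), DifferentiableAt ℝ H y :=
      hHL.ae_differentiableAt
    have hdense : Dense {y : E3 | DifferentiableAt ℝ H y} := Measure.dense_of_ae hae
    -- zero set through a differentiability point
    have hmap : Continuous (fun y : E3 => y - H y • e) := continuous_id.sub (hHc.smul continuous_const)
    rw [mem_closure_iff_nhds]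
    intro V hV
    have hx' : x - H x • e = x := by rw [hHx, zero_smul, sub_zero]
    have hpre : (fun y : E3 => y - H y • e) ⁻¹' (V ∩ W) ∈ 𝓝 x := by
      apply hmap.continuousAt.preimage_mem_nhds
      simp only [hx']
      exact Filter.inter_mem hV (hW.mem_nhds hxW)
    obtain ⟨y, hy1, hy2⟩ := mem_closure_iff_nhds.1 (hdense x) _ hpre
    refine ⟨y - H y • e, hy1.1, ?_⟩
    have hyd : DifferentiableAt ℝ H y := hy2
    have hz0 : H (y - H y • e) = 0 := by
      have := hshift y (-H y)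
      rw [neg_smul, ← sub_eq_add_neg] at this
      rw [this]; ring
    -- differentiability at the shifted point
    have hzd : DifferentiableAt ℝ H (y - H y • e) := by
      have e1 : H = fun w => H (w + H y • e) - H y := by
        funext w
        rw [hshift]; ring
      have h2 : DifferentiableAt ℝ (fun w : E3 => w + H y • e) (y - H y • e) := by fun_prop
      have h3 : DifferentiableAt ℝ H ((fun w : E3 => w + H y • e) (y - H y • e)) := by
        simp only [sub_add_cancel]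
        exact hyd
      have h4' : DifferentiableAt ℝ (H ∘ fun w : E3 => w + H y • e) (y - H y • e) :=
        DifferentiableAt.comp (y - H y • e) h3 h2
      have h4 : DifferentiableAt ℝ (fun w => (H ∘ fun w : E3 => w + H y • e) w - H y)
          (y - H y • e) := h4'.sub_const (H y)
      exact h4.congr_of_eventuallyEq (Eventually.of_forall fun w => congrFun e1 w)
    refine tanAt_of_differentiable (hW.mem_nhds hy1.2) hHΩ hz0 hzd ?_
    intro hzero
    have h1 : HasFDerivAt H (0 : E3 →L[ℝ] ℝ) (y - H y • e) := by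
      have := hzd.hasFDerivAt
      rwa [hzero] at this
    have h2 : HasDerivAt (fun t : ℝ => (y - H y • e) + t • e) e 0 := by
      have := ((hasDerivAt_id (0 : ℝ)).smul_const e).const_add (y - H y • e)
      simpa using this
    have h3 : HasFDerivAt H (0 : E3 →L[ℝ] ℝ) ((fun t : ℝ => (y - H y • e) + t • e) 0) := by
      simpa using h1
    have h4 := h3.comp_hasDerivAt (0 : ℝ) h2
    have h5 : (H ∘ fun t : ℝ => (y - H y • e) + t • e) = fun t => t := by
      funext t
      simp only [Function.comp_apply, hshift, hz0, zero_add]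
    rw [h5] at h4
    have h6 := h4.unique (hasDerivAt_id (0 : ℝ))
    simp at h6

/-- smooth domains have a tangent plane at every boundary point. -/
theorem smooth_tangentDomain {Ω : Set E3} (h : Elasticity.SmoothDomain Ω) : TangentDomain Ω where
  isOpen := h.isOpen
  isBounded := h.isBounded
  dense := by
    intro x hx
    apply subset_closure
    obtain ⟨U, hU, ρ, hρ, ⟨i, hi⟩, hy⟩ := h.smooth_boundary x hx
    obtain ⟨W, hWU, hW, hxW⟩ := mem_nhds_iff.1 hU
    have hρ' : ContDiff ℝ ∞ ρ := hρ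
    have hρc : Continuous ρ := hρ'.continuous
    have hρx : ρ x = 0 := by
      rw [h.isOpen.frontier_eq] at hx
      apply le_antisymm
      · by_contra hcon
        push Not at hcon
        have : W ∩ {y | 0 < ρ y} ∈ 𝓝 x :=
          (hW.inter (isOpen_lt continuous_const hρc)).mem_nhds ⟨hxW, hcon⟩
        obtain ⟨y, hy1, hy2⟩ := mem_closure_iff_nhds.1 hx.1 _ this
        exact absurd ((hy y (hWU hy1.1)).1 hy2) (not_lt.2 (le_of_lt hy1.2))
      · by_contra hcon
        push Not at hcon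
        exact hx.2 ((hy x (hWU hxW)).2 hcon)
    refine tanAt_of_differentiable hU hy hρx ((hρ'.differentiable (by simp)) x) ?_
    intro h0
    apply hi
    unfold Elasticity.pd
    rw [h0]
    rfl

/-! ### bridges to the public definitions -/

section bridge

variable {Ω : Set E3} {lam mu lam₁ mu₁ lam₂ mu₂ : E3 → ℝ}

lemma sc_of (h1 : Elliptic Ω lam mu) (h2 : Coercive Ω lam mu) : SC Ω lam mu where
  lam_smooth := h1.1
  mu_smooth := h1.2.1
  mu_pos := fun x hx => (h1.2.2 x hx).1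
  sum_pos := fun x hx => (h1.2.2 x hx).2
  coer := h2

lemma fderiv_eq_of_pd {f g : E3 → ℝ} {x : E3} (h : ∀ i, pd i f x = pd i g x) :
    fderiv ℝ f x = fderiv ℝ g x := by
  ext v
  have hv : v = ∑ i, v i • bv i := by
    ext j
    unfold bv
    simp [Finset.sum_apply, Pi.single_apply]
  rw [hv, map_sum, map_sum]
  refine Finset.sum_congr rfl fun i _ => ?_
  rw [map_smul, map_smul]
  congr 1
  exact h i

lemma first_order_of (h : AgreeToFirstOrder Ω lam₁ mu₁ lam₂ mu₂) :
    ∀ x ∈ frontier Ω, mu₁ x = mu₂ x ∧ lam₁ x = lam₂ x ∧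
      fderiv ℝ mu₁ x = fderiv ℝ mu₂ x ∧ fderiv ℝ lam₁ x = fderiv ℝ lam₂ x := by
  intro x hx
  obtain ⟨h1, h2, h3⟩ := h x hx
  exact ⟨h2, h1, fderiv_eq_of_pd fun i => (h3 i).2, fderiv_eq_of_pd fun i => (h3 i).1⟩

lemma real_of_cauchy (ho : IsOpen Ω) (hb : Bornology.IsBounded Ω)
    (h : CauchyDataSubset Ω lam₁ mu₁ lam₂ mu₂) :
    ∀ u : H1 Ω, WeakSol lam₁ mu₁ u →
      ∃ w : H1 Ω, SameTrace w u ∧ ∀ g : Fin 3 → E3 → ℝ, (∀ j, ContDiff ℝ ∞ (g j)) →
      form Ω lam₂ mu₂ w.der (fun i j => pd i (g j)) =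
        form Ω lam₁ mu₁ u.der (fun i j => pd i (g j)) := by
  intro u hu
  obtain ⟨v, hv1, -, hv3⟩ := h (Bridge.ofH1 u) hu
  refine ⟨Bridge.toH1 v, ?_, fun g hg => ?_⟩
  · exact (Bridge.sameTrace_iff v (Bridge.ofH1 u)).1 hv1
  · exact hv3 (Bridge.ofH1 (ofSmooth ho hb g hg))

theorem cauchy_public (ho : IsOpen Ω) (hb : Bornology.IsBounded Ω)
    (h1 : Elliptic Ω lam₁ mu₁) (h2 : Elliptic Ω lam₂ mu₂)
    (hbd : AgreeToFirstOrder Ω lam₁ mu₁ lam₂ mu₂)
    (hC : CauchyDataSubset Ω lam₁ mu₁ lam₂ mu₂) :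
    ∀ x ∈ Ω, lam₁ x = lam₂ x ∧ mu₁ x = mu₂ x :=
  interior ho hb h1.1 h1.2.1 h2.1 h2.2.1 h1.2.2 h2.2.2
    (transfer_of_real ho hb (ContDiff.continuous h1.1) (ContDiff.continuous h1.2.1)
      (ContDiff.continuous h2.1) (ContDiff.continuous h2.2.1) (real_of_cauchy ho hb hC))
    (first_order_of hbd)

theorem tangent_public (hΩ : TangentDomain Ω)
    (h1 : Elliptic Ω lam₁ mu₁) (h2 : Elliptic Ω lam₂ mu₂)
    (c1 : Coercive Ω lam₁ mu₁) (c2 : Coercive Ω lam₂ mu₂)
    (hDN : Elasticity.SameDN Ω lam₁ mu₁ lam₂ mu₂) :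
    ∀ x ∈ Ω, lam₁ x = lam₂ x ∧ mu₁ x = mu₂ x :=
  global' hΩ.isOpen hΩ.isBounded hΩ.dense (sc_of h1 c1) (sc_of h2 c2) (Bridge.sameDN hDN)

/-- admissible pairs belong to the larger class. -/
theorem admissible_public (ho : IsOpen Ω) (hb : Bornology.IsBounded Ω)
    (h : Elasticity.Admissible Ω lam mu) : Elliptic Ω lam mu ∧ Coercive Ω lam mu := by
  refine ⟨⟨h.1, h.2.1, fun x hx => ?_⟩, ?_⟩
  · obtain ⟨h1, h2⟩ := h.2.2 x hx
    exact ⟨h1, by linarith⟩
  · obtain ⟨c, M, R, C⟩ := Exist.exists_coef ho hb (Bridge.admissible h)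
    have hc := C.c_pos
    refine ⟨c / 2, by positivity, fun φ hφ => ?_⟩
    have h1 := C.korn (φ := φ) hφ
    have h2 : ∑ i, ∑ j, Elasticity.integ Ω (fun x => (Elasticity.pd i (φ j) x) ^ 2) =
        ∑ i, ∑ j, ∫ x, (pd i (φ j) x) ^ 2 :=
      Finset.sum_congr rfl fun i _ => Finset.sum_congr rfl fun j _ =>
        Exist.int_test_sq_eq (φ := φ) hφ i j
    rw [h2]
    calc c / 2 * ∑ i, ∑ j, ∫ x, (pd i (φ j) x) ^ 2 ≤
        c / 2 * (2 / c * form Ω lam mu (fun i j => pd i (φ j)) (fun i j => pd i (φ j))) :=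
          mul_le_mul_of_nonneg_left h1 (by positivity)
      _ = form Ω lam mu (fun i j => pd i (φ j)) (fun i j => pd i (φ j)) := by field_simp
      _ = _ := rfl

/-- constant moduli with `μ > 0` and `λ + μ > 0` are coercive on every set. -/
theorem const_public (Ω : Set E3) {a b : ℝ} (hb : 0 < b) (hab : 0 < a + b) :
    Coercive Ω (fun _ => a) (fun _ => b) := by
  refine ⟨b, hb, fun φ hφ => ?_⟩
  have hφ' : ∀ j, IsTest Ω (φ j) := hφ
  have ip : ∀ i j k l, Integrable (fun x => pd i (φ j) x * pd k (φ l) x) := fun i j k l =>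
    Exist.mul_int (Exist.test_pd_memLp (hφ' j) i) (Exist.test_pd_memLp (hφ' l) k)
  have h2 : ∑ i, ∑ j, Elasticity.integ Ω (fun x => (Elasticity.pd i (φ j) x) ^ 2) =
      ∑ i, ∑ j, ∫ x, (pd i (φ j) x) ^ 2 :=
    Finset.sum_congr rfl fun i _ => Finset.sum_congr rfl fun j _ =>
      Exist.int_test_sq_eq (φ := φ) hφ' i j
  rw [h2]
  have h3 : Elasticity.form Ω (fun _ => a) (fun _ => b) (fun i j => Elasticity.pd i (φ j))
      (fun i j => Elasticity.pd i (φ j)) =
      ∫ x, (a * ((∑ i, pd i (φ i) x) * ∑ i, pd i (φ i) x) +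
        2 * b * ∑ i, ∑ j, ((pd i (φ j) x + pd j (φ i) x) / 2) *
          ((pd i (φ j) x + pd j (φ i) x) / 2)) := by
    refine setIntegral_eq_integral_of_forall_compl_eq_zero fun x hx => ?_
    have hz : ∀ i j, Elasticity.pd i (φ j) x = 0 := fun i j => Exist.test_pd_zero (hφ' j) i hx
    simp [hz]
  rw [h3]
  have e1 : ∀ x, a * ((∑ i, pd i (φ i) x) * ∑ i, pd i (φ i) x) +
        2 * b * ∑ i, ∑ j, ((pd i (φ j) x + pd j (φ i) x) / 2) *
          ((pd i (φ j) x + pd j (φ i) x) / 2) =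
      a * (∑ i, ∑ j, pd j (φ j) x * pd i (φ i) x) +
        b * (∑ i, ∑ j, (pd i (φ j) x * pd i (φ j) x + pd i (φ j) x * pd j (φ i) x)) := by
    intro x
    simp only [Fin.sum_univ_three]
    ring
  simp_rw [e1]
  have iA : Integrable (fun x => ∑ i, ∑ j, pd j (φ j) x * pd i (φ i) x) :=
    integrable_finsetSum _ fun i _ => integrable_finsetSum _ fun j _ => ip j j i i
  have iB : Integrable (fun x => ∑ i, ∑ j, (pd i (φ j) x * pd i (φ j) x +
      pd i (φ j) x * pd j (φ i) x)) :=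
    integrable_finsetSum _ fun i _ => integrable_finsetSum _ fun j _ =>
      (ip i j i j).add (ip i j j i)
  rw [integral_add (iA.const_mul a) (iB.const_mul b), integral_const_mul, integral_const_mul]
  have eA : ∫ x, ∑ i, ∑ j, pd j (φ j) x * pd i (φ i) x =
      ∑ i, ∑ j, ∫ x, pd j (φ j) x * pd i (φ i) x := by
    rw [integral_finsetSum _ fun i _ => integrable_finsetSum _ fun j _ => ip j j i i]
    exact Finset.sum_congr rfl fun i _ => integral_finsetSum _ fun j _ => ip j j i i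
  have eB : ∫ x, ∑ i, ∑ j, (pd i (φ j) x * pd i (φ j) x + pd i (φ j) x * pd j (φ i) x) =
      (∑ i, ∑ j, ∫ x, (pd i (φ j) x) ^ 2) + ∑ i, ∑ j, ∫ x, pd j (φ j) x * pd i (φ i) x := by
    have iS : ∀ i j, Integrable (fun x => pd i (φ j) x * pd i (φ j) x +
        pd i (φ j) x * pd j (φ i) x) := fun i j => (ip i j i j).add (ip i j j i)
    rw [integral_finsetSum _ fun i _ => integrable_finsetSum _ fun j _ => iS i j,
      ← Finset.sum_add_distrib]
    refine Finset.sum_congr rfl fun i _ => ?_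
    rw [integral_finsetSum _ fun j _ => iS i j, ← Finset.sum_add_distrib]
    refine Finset.sum_congr rfl fun j _ => ?_
    rw [integral_add (ip i j i j) (ip i j j i), Exist.int_cross (hφ' j) (hφ' i) i j]
    simp_rw [sq]
  have e4 : 0 ≤ ∑ i, ∑ j, ∫ x, pd j (φ j) x * pd i (φ i) x := by
    rw [← eA]
    refine integral_nonneg fun x => ?_
    have e5 : ∑ i, ∑ j, pd j (φ j) x * pd i (φ i) x = (∑ i, pd i (φ i) x) ^ 2 := by
      simp only [Fin.sum_univ_three]
      ring
    simp only [e5]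
    exact sq_nonneg _
  rw [eA, eB]
  have := mul_nonneg hab.le e4
  linarith only [this]

end bridge

end Vale.Agent.P136.Rough
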