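import Vale.Agent.P136.H222.Bd

set_option linter.all false

/-! Local geometry at a point with a tangent plane. -/

open MeasureTheory Filter Topology Metric
open scoped ContDiff InnerProductSpace

namespace Vale.Agent.P136.BD.Rough

/-- tangent plane with unit normal `n`, the set on one side -/
def TanAt (Ω : Set E3) (x n : E3) : Prop :=
  ∀ ε > 0, ∀ᶠ y in 𝓝 x,
    (⟪n, y - x⟫_ℝ < -(ε * ‖y - x‖) → y ∈ Ω) ∧ (ε * ‖y - x‖ < ⟪n, y - x⟫_ℝ → y ∉ Ω)

lemma segment_meets_frontier {Ω : Set E3} (ho : IsOpen Ω) {a b : E3} (ha : a ∈ Ω) (hb : b ∉ Ω) :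
    ∃ s : ℝ, 0 ≤ s ∧ s ≤ 1 ∧ a + s • (b - a) ∈ frontier Ω := by
  by_contra hcon
  push Not at hcon
  have hseg : segment ℝ a b ⊆ Ω ∪ (closure Ω)ᶜ := by
    intro y hy
    rw [segment_eq_image'] at hy
    obtain ⟨s, ⟨h0, h1⟩, rfl⟩ := hy
    have h2 := hcon s h0 h1
    rw [ho.frontier_eq] at h2
    by_cases h3 : a + s • (b - a) ∈ Ω
    · exact Or.inl h3
    · refine Or.inr fun h4 => h2 ⟨h4, h3⟩
  have hpre : IsPreconnected (segment ℝ a b) := (convex_segment a b).isPreconnected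
  have hdis : Disjoint Ω (closure Ω)ᶜ :=
    Set.disjoint_left.2 fun x hx hx' => hx' (subset_closure hx)
  have h5 := hpre.subset_left_of_subset_union ho isClosed_closure.isOpen_compl hdis hseg
    ⟨a, left_mem_segment ℝ a b, ha⟩
  exact hb (h5 (right_mem_segment ℝ a b))

lemma TanAt.eventually {Ω : Set E3} {x n : E3} (h : TanAt Ω x n) {ε : ℝ} (hε : 0 < ε) :
    ∃ δ > 0, ∀ y, ‖y - x‖ < δ →
      (⟪n, y - x⟫_ℝ < -(ε * ‖y - x‖) → y ∈ Ω) ∧ (ε * ‖y - x‖ < ⟪n, y - x⟫_ℝ → y ∉ Ω) := by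
  have := h ε hε
  rw [Metric.eventually_nhds_iff] at this
  obtain ⟨δ, h1, h2⟩ := this
  exact ⟨δ, h1, fun y hy => h2 (by rw [dist_eq_norm]; exact hy)⟩

lemma TanAt.frontier {Ω : Set E3} (ho : IsOpen Ω) {x n : E3} (hn : ‖n‖ = 1) (h : TanAt Ω x n) :
    x ∈ frontier Ω := by
  obtain ⟨δ, hδ, hd⟩ := h.eventually (ε := 1 / 2) (by norm_num)
  have hnn : ⟪n, n⟫_ℝ = 1 := by rw [real_inner_self_eq_norm_sq, hn]; norm_num
  have k1 : ∀ t : ℝ, 0 < t → t < δ → x - t • n ∈ Ω ∧ x + t • n ∉ Ω := by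
    intro t ht ht'
    have e1 : x - t • n - x = -(t • n) := by abel
    have e2 : x + t • n - x = t • n := by abel
    have n1 : ‖t • n‖ = t := by rw [norm_smul, hn, mul_one, Real.norm_of_nonneg ht.le]
    constructor
    · refine (hd _ ?_).1 ?_
      · rw [e1, norm_neg, n1]; exact ht'
      · rw [e1, norm_neg, n1, inner_neg_right, real_inner_smul_right, hnn]; linarith
    · refine (hd _ ?_).2 ?_
      · rw [e2, n1]; exact ht'
      · rw [e2, n1, real_inner_smul_right, hnn]; linarith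
  have hcl : x ∈ closure Ω := by
    rw [Metric.mem_closure_iff]
    intro ε hε
    refine ⟨x - (min (δ / 2) (ε / 2)) • n, (k1 _ (by positivity) ?_).1, ?_⟩
    · exact lt_of_le_of_lt (min_le_left _ _) (by linarith)
    · rw [dist_eq_norm]
      have e1 : x - (x - (min (δ / 2) (ε / 2)) • n) = (min (δ / 2) (ε / 2)) • n := by abel
      rw [e1, norm_smul, hn, mul_one, Real.norm_of_nonneg (by positivity)]
      exact lt_of_le_of_lt (min_le_right _ _) (by linarith)
  rw [ho.frontier_eq]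
  refine ⟨hcl, fun hx => ?_⟩
  obtain ⟨r, hr, hb⟩ := Metric.isOpen_iff.1 ho x hx
  have h3 := (k1 (min (δ / 2) (r / 2)) (by positivity)
    (lt_of_le_of_lt (min_le_left _ _) (by linarith))).2
  apply h3
  apply hb
  rw [Metric.mem_ball, dist_eq_norm]
  have e1 : x + (min (δ / 2) (r / 2)) • n - x = (min (δ / 2) (r / 2)) • n := by abel
  rw [e1, norm_smul, hn, mul_one, Real.norm_of_nonneg (by positivity)]
  exact lt_of_le_of_lt (min_le_right _ _) (by linarith)

/-- the four geometric facts used in the boundary determination -/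
theorem tan_geom {Ω : Set E3} (ho : IsOpen Ω) {x0 n : E3} (hn : ‖n‖ = 1) (h : TanAt Ω x0 n) :
    ∃ r0 : ℝ, 0 < r0 ∧
      (∀ r, 0 < r → r < r0 → ∀ x ∈ Ω, (1 / 6) * (r + ‖x - x0‖) < ‖x - (x0 + r • n)‖) ∧
      (∀ r, 0 < r → r < r0 → Metric.ball (x0 - (2 * r) • n) r ⊆ Ω) ∧
      (∀ η > 0, ∃ K, 0 ≤ K ∧ ∀ x ∈ Ω, ⟪n, x - x0⟫_ℝ ≤ η * ‖x - x0‖ + K * ‖x - x0‖ ^ 2) ∧
      (∀ f : E3 → ℝ, ContDiff ℝ ∞ f → (∀ z ∈ frontier Ω, f z = 0) → ∀ v, ⟪n, v⟫_ℝ = 0 →
        fderiv ℝ f x0 v = 0) := by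
  have hnn : ⟪n, n⟫_ℝ = 1 := by rw [real_inner_self_eq_norm_sq, hn]; norm_num
  obtain ⟨δ, hδ, hd⟩ := h.eventually (ε := 1 / 4) (by norm_num)
  refine ⟨δ / 4, by positivity, ?_, ?_, ?_, ?_⟩
  · intro r hr hr0 x hx
    by_cases hs : ‖x - x0‖ < δ
    · have h1 : ⟪n, x - x0⟫_ℝ ≤ 1 / 4 * ‖x - x0‖ := by
        by_contra hcon
        push Not at hcon
        exact (hd x hs).2 hcon hx
      have h2 : ‖x - (x0 + r • n)‖ ^ 2 = ‖x - x0‖ ^ 2 - 2 * (r * ⟪n, x - x0⟫_ℝ) + r ^ 2 := by
        have e : x - (x0 + r • n) = (x - x0) - r • n := by abel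
        rw [e, norm_sub_sq_real, real_inner_smul_right, real_inner_comm, norm_smul, hn, mul_one,
          Real.norm_of_nonneg hr.le]
      have hs0 := norm_nonneg (x - x0)
      have h3 : ((1 / 6) * (r + ‖x - x0‖)) ^ 2 < ‖x - (x0 + r • n)‖ ^ 2 := by
        rw [h2]
        have h4 : r * ⟪n, x - x0⟫_ℝ ≤ r * (1 / 4 * ‖x - x0‖) := mul_le_mul_of_nonneg_left h1 hr.le
        nlinarith [sq_nonneg (r - ‖x - x0‖), mul_pos hr hr]
      exact lt_of_pow_lt_pow_left₀ 2 (norm_nonneg _) h3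
    · rw [not_lt] at hs
      have h1 : ‖x - x0‖ - r ≤ ‖x - (x0 + r • n)‖ := by
        have e : x - x0 = (x - (x0 + r • n)) + r • n := by abel
        have h2 : ‖x - x0‖ ≤ ‖x - (x0 + r • n)‖ + r := by
          calc ‖x - x0‖ = ‖(x - (x0 + r • n)) + r • n‖ := by rw [← e]
            _ ≤ ‖x - (x0 + r • n)‖ + ‖r • n‖ := norm_add_le _ _
            _ = _ := by rw [norm_smul, hn, mul_one, Real.norm_of_nonneg hr.le]
        linarith
      linarith
  · intro r hr hr0 y hy
    rw [mem_ball, dist_eq_norm] at hy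
    have e : y - x0 = (y - (x0 - (2 * r) • n)) - (2 * r) • n := by abel
    have h1 : ‖y - x0‖ < 3 * r := by
      calc ‖y - x0‖ ≤ ‖y - (x0 - (2 * r) • n)‖ + ‖(2 * r) • n‖ := by rw [e]; exact norm_sub_le _ _
        _ < r + 2 * r := by
            rw [norm_smul, hn, mul_one, Real.norm_of_nonneg (by positivity)]
            linarith
        _ = _ := by ring
    have h2 : ⟪n, y - x0⟫_ℝ < - r := by
      have h3 := real_inner_le_norm n (y - (x0 - (2 * r) • n))
      rw [hn, one_mul] at h3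
      rw [e, inner_sub_right, real_inner_smul_right, hnn]
      linarith only [h3, hy]
    exact (hd y (by linarith)).1 (by linarith)
  · intro η hη
    obtain ⟨δ', hδ', hd'⟩ := h.eventually hη
    refine ⟨1 / δ', by positivity, fun x hx => ?_⟩
    by_cases hs : ‖x - x0‖ < δ'
    · have h1 : ⟪n, x - x0⟫_ℝ ≤ η * ‖x - x0‖ := by
        by_contra hcon
        push Not at hcon
        exact (hd' x hs).2 hcon hx
      have h2 : 0 ≤ 1 / δ' * ‖x - x0‖ ^ 2 := by positivity
      linarith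
    · rw [not_lt] at hs
      have h1 := real_inner_le_norm n (x - x0)
      rw [hn, one_mul] at h1
      have h2 : ‖x - x0‖ ≤ 1 / δ' * ‖x - x0‖ ^ 2 := by
        rw [one_div, inv_mul_eq_div, le_div_iff₀ hδ', sq]
        exact mul_le_mul_of_nonneg_left hs (norm_nonneg _)
      have h3 : 0 ≤ η * ‖x - x0‖ := by positivity
      linarith
  · intro f hf hf0 v hv
    have hx0 : f x0 = 0 := hf0 x0 (h.frontier ho hn)
    by_contra hne
    set a := |fderiv ℝ f x0 v| with ha
    have ha0 : 0 < a := abs_pos.2 hne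
    set L := ‖fderiv ℝ f x0‖ with hL
    have hL0 : 0 ≤ L := norm_nonneg _
    set V := ‖v‖ + 1 with hV
    have hV0 : 0 < V := by positivity
    -- choice of `ε`
    obtain ⟨ε, hε, hε2, hεa⟩ : ∃ ε : ℝ, 0 < ε ∧ ε ≤ 1 / 2 ∧ 2 * ε * V * L + ε * (2 * V) < a := by
      have hden : 0 < 2 * V * L + 2 * V + 1 := by positivity
      refine ⟨min (1 / 2) (a / (2 * (2 * V * L + 2 * V + 1))), by positivity, min_le_left _ _, ?_⟩
      have h1 : min (1 / 2) (a / (2 * (2 * V * L + 2 * V + 1))) ≤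
        a / (2 * (2 * V * L + 2 * V + 1)) := min_le_right _ _
      set m := min (1 / 2) (a / (2 * (2 * V * L + 2 * V + 1)))
      rw [le_div_iff₀ (by positivity)] at h1
      have hm : 0 < m := by positivity
      nlinarith
    obtain ⟨δ1, hδ1, hd1⟩ := h.eventually hε
    have hdiff : DifferentiableAt ℝ f x0 := (hf.differentiable (by simp)) x0
    have hlit := hdiff.hasFDerivAt.isLittleO.def hε
    rw [Metric.eventually_nhds_iff] at hlit
    obtain ⟨δ2, hδ2, hd2⟩ := hlit
    -- choice of `t`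
    obtain ⟨t, ht, ht1, ht2⟩ : ∃ t : ℝ, 0 < t ∧ t * (2 * V) < δ1 ∧ t * (2 * V) < δ2 := by
      refine ⟨min δ1 δ2 / (4 * V), by positivity, ?_, ?_⟩
      · have : min δ1 δ2 / (4 * V) * (2 * V) = min δ1 δ2 / 2 := by field_simp; ring
        rw [this]
        have := min_le_left δ1 δ2
        linarith
      · have : min δ1 δ2 / (4 * V) * (2 * V) = min δ1 δ2 / 2 := by field_simp; ring
        rw [this]
        have := min_le_right δ1 δ2
        linarith
    set s0 := 2 * ε * V * t with hs0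
    have hs0p : 0 < s0 := by positivity
    have hs0V : s0 ≤ V * t := by
      rw [hs0]
      have : 2 * ε ≤ 1 := by linarith
      calc 2 * ε * V * t = (2 * ε) * (V * t) := by ring
        _ ≤ 1 * (V * t) := mul_le_mul_of_nonneg_right this (by positivity)
        _ = _ := one_mul _
    have hnorm : ∀ s : ℝ, |s| ≤ s0 → ‖t • v + s • n‖ ≤ t * (2 * V) := by
      intro s hs
      calc ‖t • v + s • n‖ ≤ ‖t • v‖ + ‖s • n‖ := norm_add_le _ _
        _ = t * ‖v‖ + |s| := by
            rw [norm_smul, norm_smul, hn, mul_one, Real.norm_of_nonneg ht.le, Real.norm_eq_abs]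
        _ ≤ t * V + V * t := by
            have : t * ‖v‖ ≤ t * V := mul_le_mul_of_nonneg_left (by linarith) ht.le
            linarith
        _ = _ := by ring
    have hinn : ∀ s : ℝ, ⟪n, t • v + s • n⟫_ℝ = s := by
      intro s
      rw [inner_add_right, real_inner_smul_right, real_inner_smul_right, hv, hnn]
      ring
    -- sharper bound at the ends
    have hend : ε * (t * ‖v‖ + s0) < s0 := by
      have h1 : s0 * (1 - ε) ≥ s0 * (1 / 2) := mul_le_mul_of_nonneg_left (by linarith) hs0p.le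
      have h2 : s0 * (1 / 2) = ε * (V * t) := by rw [hs0]; ring
      have h3 : ε * (t * ‖v‖) < ε * (V * t) := by
        apply mul_lt_mul_of_pos_left _ hε
        rw [hV]; nlinarith
      nlinarith
    have hend2 : ∀ s : ℝ, |s| = s0 → ε * ‖t • v + s • n‖ < s0 := by
      intro s hs
      refine lt_of_le_of_lt (mul_le_mul_of_nonneg_left ?_ hε.le) hend
      calc ‖t • v + s • n‖ ≤ ‖t • v‖ + ‖s • n‖ := norm_add_le _ _
        _ = t * ‖v‖ + s0 := by
            rw [norm_smul, norm_smul, hn, mul_one, Real.norm_of_nonneg ht.le, Real.norm_eq_abs, hs]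
    have hA : x0 + (t • v + (-s0) • n) ∈ Ω := by
      have e : x0 + (t • v + (-s0) • n) - x0 = t • v + (-s0) • n := by abel
      refine (hd1 _ ?_).1 ?_
      · rw [e]
        exact lt_of_le_of_lt (hnorm _ (by rw [abs_neg, abs_of_pos hs0p])) ht1
      · rw [e, hinn]
        have := hend2 (-s0) (by rw [abs_neg, abs_of_pos hs0p])
        linarith
    have hB : x0 + (t • v + s0 • n) ∉ Ω := by
      have e : x0 + (t • v + s0 • n) - x0 = t • v + s0 • n := by abel
      refine (hd1 _ ?_).2 ?_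
      · rw [e]
        exact lt_of_le_of_lt (hnorm _ (by rw [abs_of_pos hs0p])) ht1
      · rw [e, hinn]
        exact hend2 s0 (by rw [abs_of_pos hs0p])
    obtain ⟨σ, hσ0, hσ1, hfr⟩ := segment_meets_frontier ho hA hB
    set s := -s0 + σ * (2 * s0) with hs
    have ey : x0 + (t • v + (-s0) • n) + σ • (x0 + (t • v + s0 • n) - (x0 + (t • v + (-s0) • n))) =
        x0 + (t • v + s • n) := by
      rw [hs]
      module
    rw [ey] at hfr
    have hsle : |s| ≤ s0 := by
      rw [abs_le, hs]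
      constructor <;> nlinarith
    have hy0 := hf0 _ hfr
    have e : x0 + (t • v + s • n) - x0 = t • v + s • n := by abel
    have hlin := hd2 (y := x0 + (t • v + s • n)) (by
      rw [dist_eq_norm, e]
      exact lt_of_le_of_lt (hnorm s hsle) ht2)
    rw [hy0, hx0, e, sub_zero, zero_sub, norm_neg, map_add, map_smul, map_smul, smul_eq_mul,
      smul_eq_mul, Real.norm_eq_abs] at hlin
    have h7 : t * a ≤ |s| * L + ε * (t * (2 * V)) := by
      have k1 : |t * fderiv ℝ f x0 v| ≤ |t * fderiv ℝ f x0 v + s * fderiv ℝ f x0 n| +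
          |s * fderiv ℝ f x0 n| := by
        have := abs_sub (t * fderiv ℝ f x0 v + s * fderiv ℝ f x0 n) (s * fderiv ℝ f x0 n)
        rwa [add_sub_cancel_right] at this
      have k2 : |s * fderiv ℝ f x0 n| ≤ |s| * L := by
        rw [abs_mul]
        have : |fderiv ℝ f x0 n| ≤ L := by
          have := (fderiv ℝ f x0).le_opNorm n
          rwa [hn, mul_one, Real.norm_eq_abs] at this
        exact mul_le_mul_of_nonneg_left this (abs_nonneg _)
      have k3 : |t * fderiv ℝ f x0 v| = t * a := by rw [abs_mul, abs_of_pos ht]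
      have k4 : ε * ‖t • v + s • n‖ ≤ ε * (t * (2 * V)) :=
        mul_le_mul_of_nonneg_left (hnorm s hsle) hε.le
      linarith
    have h8 : |s| * L ≤ s0 * L := mul_le_mul_of_nonneg_right hsle hL0
    have h9 : t * a ≤ t * (2 * ε * V * L + ε * (2 * V)) := by
      have : t * (2 * ε * V * L + ε * (2 * V)) = s0 * L + ε * (t * (2 * V)) := by
        rw [hs0]; ring
      linarith
    have h10 := le_of_mul_le_mul_left h9 ht
    linarith

end Vale.Agent.P136.BD.Rough
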