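import Vale.Agent.P136.H222.Tl

set_option linter.all false

/-! Interior uniqueness on arbitrary bounded open sets; transfer of solutions. -/

open MeasureTheory Filter Topology
open scoped ContDiff InnerProductSpace

namespace Vale.Agent.P136.Rough

open Vale.Agent.P136 Vale.Agent.P136.TL.Rough
open Vale.Agent.P136.Exist.Rough (SC)

/-- Normalization of the coefficients. -/
theorem N0' {Ω : Set E3} {lam mu : E3 → ℝ} (hb : Bornology.IsBounded Ω)
    (hl : ContDiff ℝ ∞ lam) (hm : ContDiff ℝ ∞ mu)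
    (hp : ∀ x ∈ closure Ω, 0 < mu x ∧ 0 < lam x + mu x) :
    ∃ (lam' mu' : E3 → ℝ) (V : Set E3), IsOpen V ∧ closure Ω ⊆ V ∧ ContDiff ℝ ∞ lam' ∧
      ContDiff ℝ ∞ mu' ∧ (∀ x, 0 < mu' x) ∧ (∀ x, 0 < lam' x + mu' x) ∧
      (∀ x ∈ V, lam' x = lam x ∧ mu' x = mu x) := by
  have hK : IsCompact (closure Ω) := hb.isCompact_closure
  have hlc : Continuous lam := hl.continuous
  have hmc : Continuous mu := hm.continuous
  have hV0 : IsOpen {x : E3 | 0 < mu x ∧ 0 < lam x + mu x} := by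
    have h1 : IsOpen {x : E3 | 0 < mu x} := isOpen_lt continuous_const hmc
    have h2 : IsOpen {x : E3 | 0 < lam x + mu x} := isOpen_lt continuous_const (by fun_prop)
    exact h1.inter h2
  obtain ⟨χ, W, hχ, hW, hKW, hχ1, hχ0, hχr⟩ := ZeroAux.exists_cutoff hK hV0
    (fun x hx => hp x hx)
  refine ⟨fun x => χ x * lam x + (1 - χ x), fun x => χ x * mu x + (1 - χ x), W, hW, hKW,
    (hχ.mul hl).add (contDiff_const.sub hχ),
    (hχ.mul hm).add (contDiff_const.sub hχ), ?_, ?_, ?_⟩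
  · intro x
    by_cases hx : x ∈ {x : E3 | 0 < mu x ∧ 0 < lam x + mu x}
    · have h1 := hχr x
      have h2 := hx.1
      beta_reduce
      rcases eq_or_lt_of_le h1.1 with h | h
      · rw [← h]; norm_num
      · have h3 : 0 < χ x * mu x := mul_pos h h2
        have h4 : 0 ≤ 1 - χ x := by linarith [h1.2]
        linarith
    · simp only [hχ0 x hx]
      norm_num
  · intro x
    by_cases hx : x ∈ {x : E3 | 0 < mu x ∧ 0 < lam x + mu x}
    · have h1 := hχr x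
      have h2 : 0 < lam x + mu x := hx.2
      beta_reduce
      rcases eq_or_lt_of_le h1.1 with h | h
      · rw [← h]; norm_num
      · have h3 : 0 < χ x * (lam x + mu x) := mul_pos h h2
        have h4 : 0 ≤ 1 - χ x := by linarith [h1.2]
        linarith only [h4, h3]
    · simp only [hχ0 x hx]
      norm_num
  · intro x hx
    simp only [hχ1 x hx]
    constructor <;> ring

lemma cform_congr_coef {Ω : Set E3} (ho : MeasurableSet Ω) {lam mu lam' mu' : E3 → ℝ}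
    (hl : ∀ x ∈ Ω, lam' x = lam x)
    (hm : ∀ x ∈ Ω, mu' x = mu x) (G H : Fin 3 → Fin 3 → E3 → ℂ) :
    cform Ω lam' mu' G H = cform Ω lam mu G H := by
  refine setIntegral_congr_fun ho fun x hx => ?_
  simp only [hl x hx, hm x hx]

/-- interior uniqueness on an arbitrary bounded open set. -/
theorem interior {Ω : Set E3} (ho : IsOpen Ω) (hb : Bornology.IsBounded Ω)
    {lam₁ mu₁ lam₂ mu₂ : E3 → ℝ} (hl₁ : ContDiff ℝ ∞ lam₁) (hm₁ : ContDiff ℝ ∞ mu₁)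
    (hl₂ : ContDiff ℝ ∞ lam₂) (hm₂ : ContDiff ℝ ∞ mu₂)
    (hp₁ : ∀ x ∈ closure Ω, 0 < mu₁ x ∧ 0 < lam₁ x + mu₁ x)
    (hp₂ : ∀ x ∈ closure Ω, 0 < mu₂ x ∧ 0 < lam₂ x + mu₂ x)
    (hTr : Transfer Ω lam₁ mu₁ lam₂ mu₂)
    (hbd : ∀ x ∈ frontier Ω, mu₁ x = mu₂ x ∧ lam₁ x = lam₂ x ∧
      fderiv ℝ mu₁ x = fderiv ℝ mu₂ x ∧ fderiv ℝ lam₁ x = fderiv ℝ lam₂ x) :
    ∀ x ∈ Ω, lam₁ x = lam₂ x ∧ mu₁ x = mu₂ x := by
  obtain ⟨l₁, m₁, V₁, hV₁, hc₁, sl₁, sm₁, pm₁, pl₁, e₁⟩ := N0' hb hl₁ hm₁ hp₁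
  obtain ⟨l₂, m₂, V₂, hV₂, hc₂, sl₂, sm₂, pm₂, pl₂, e₂⟩ := N0' hb hl₂ hm₂ hp₂
  have hmeas := ho.measurableSet
  have ee₁ : ∀ x ∈ Ω, l₁ x = lam₁ x ∧ m₁ x = mu₁ x := fun x hx => e₁ x (hc₁ (subset_closure hx))
  have ee₂ : ∀ x ∈ Ω, l₂ x = lam₂ x ∧ m₂ x = mu₂ x := fun x hx => e₂ x (hc₂ (subset_closure hx))
  have hDN' : Transfer Ω l₁ m₁ l₂ m₂ := by
    intro u du hu hs
    have hs' : CSol Ω lam₁ mu₁ du := by
      intro φ hφ
      have := hs φ hφ
      rwa [cform_congr_coef hmeas (fun x hx => (ee₁ x hx).1) (fun x hx => (ee₁ x hx).2)] at this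
    obtain ⟨v, dv, hv, h⟩ := hTr u du hu hs'
    refine ⟨v, dv, hv, fun g hg => ?_⟩
    rw [cform_congr_coef hmeas (fun x hx => (ee₁ x hx).1) (fun x hx => (ee₁ x hx).2),
      cform_congr_coef hmeas (fun x hx => (ee₂ x hx).1) (fun x hx => (ee₂ x hx).2)]
    exact h g hg
  have hbd' : ∀ x ∈ frontier Ω, m₁ x = m₂ x ∧ l₁ x = l₂ x ∧
      fderiv ℝ m₁ x = fderiv ℝ m₂ x ∧ fderiv ℝ l₁ x = fderiv ℝ l₂ x := by
    intro x hx
    have hxc : x ∈ closure Ω := frontier_subset_closure hx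
    obtain ⟨b1, b2, b3, b4⟩ := hbd x hx
    have ev₁ : ∀ᶠ y in 𝓝 x, l₁ y = lam₁ y ∧ m₁ y = mu₁ y := by
      filter_upwards [hV₁.mem_nhds (hc₁ hxc)] with y hy using e₁ y hy
    have ev₂ : ∀ᶠ y in 𝓝 x, l₂ y = lam₂ y ∧ m₂ y = mu₂ y := by
      filter_upwards [hV₂.mem_nhds (hc₂ hxc)] with y hy using e₂ y hy
    have d1 : fderiv ℝ m₁ x = fderiv ℝ mu₁ x :=
      Filter.EventuallyEq.fderiv_eq (ev₁.mono fun y hy => hy.2)
    have d2 : fderiv ℝ m₂ x = fderiv ℝ mu₂ x :=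
      Filter.EventuallyEq.fderiv_eq (ev₂.mono fun y hy => hy.2)
    have d3 : fderiv ℝ l₁ x = fderiv ℝ lam₁ x :=
      Filter.EventuallyEq.fderiv_eq (ev₁.mono fun y hy => hy.1)
    have d4 : fderiv ℝ l₂ x = fderiv ℝ lam₂ x :=
      Filter.EventuallyEq.fderiv_eq (ev₂.mono fun y hy => hy.1)
    refine ⟨?_, ?_, ?_, ?_⟩
    · rw [(e₁ x (hc₁ hxc)).2, (e₂ x (hc₂ hxc)).2, b1]
    · rw [(e₁ x (hc₁ hxc)).1, (e₂ x (hc₂ hxc)).1, b2]
    · rw [d1, d2, b3]
    · rw [d3, d4, b4]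
  have hT : TLS Ω m₁ (acoef l₁ m₁) m₂ (acoef l₂ m₂) :=
    TLfull' Ω l₁ m₁ l₂ m₂ ho hb ⟨sl₁, sm₁⟩ ⟨sl₂, sm₂⟩ pm₁ pl₁ pm₂ pl₂ hDN' hbd'
  have hfin := CP1 Ω m₁ (acoef l₁ m₁) m₂ (acoef l₂ m₂) ho hb sm₁
    (acoef_contDiff sl₁ sm₁ pm₁ pl₁) sm₂ (acoef_contDiff sl₂ sm₂ pm₂ pl₂) pm₁
    (fun x => acoef_pos (pm₁ x) (pl₁ x)) pm₂ (fun x => acoef_pos (pm₂ x) (pl₂ x))
    (fun x => acoef_mul (pm₁ x) (pl₁ x)) (fun x => acoef_mul (pm₂ x) (pl₂ x))
    (fun x hx => by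
      obtain ⟨b1, b2, b3, b4⟩ := hbd' x hx
      refine ⟨b1, b3, ?_, ?_⟩
      · unfold acoef
        rw [b1, b2]
      · exact fderiv_acoef_congr (sl₁.differentiable (by simp) x) (sm₁.differentiable (by simp) x)
          (sl₂.differentiable (by simp) x) (sm₂.differentiable (by simp) x) (pm₁ x) (pl₁ x)
          b2 b1 b4 b3) hT
  intro x hx
  obtain ⟨f1, f2⟩ := hfin x hx
  have f3 : l₁ x = l₂ x := lam_eq_of_acoef_eq (pm₁ x) (pl₁ x) (pl₂ x) f1 f2
  rw [(ee₁ x hx).2, (ee₂ x hx).2] at f1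
  rw [(ee₁ x hx).1, (ee₂ x hx).1] at f3
  exact ⟨f3, f1⟩

/-- complex transfer from real transfer. -/
theorem transfer_of_real {Ω : Set E3} (hop : IsOpen Ω) (hb : Bornology.IsBounded Ω)
    {lam₁ mu₁ lam₂ mu₂ : E3 → ℝ} (hl1 : Continuous lam₁) (hm1 : Continuous mu₁)
    (hl2 : Continuous lam₂) (hm2 : Continuous mu₂)
    (hreal : ∀ u : H1 Ω, WeakSol lam₁ mu₁ u →
      ∃ w : H1 Ω, SameTrace w u ∧ ∀ g : Fin 3 → E3 → ℝ, (∀ j, ContDiff ℝ ∞ (g j)) →
      form Ω lam₂ mu₂ w.der (fun i j => pd i (g j)) =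
        form Ω lam₁ mu₁ u.der (fun i j => pd i (g j))) :
    Transfer Ω lam₁ mu₁ lam₂ mu₂ := by
  intro u du hu hs
  have ho := hop.measurableSet
  obtain ⟨sr, si⟩ := CSol.parts hop hb hl1 hm1 hu hs
  obtain ⟨wr, ⟨φr, tr1, tr2, tr3⟩, fr⟩ := hreal _ sr
  obtain ⟨wi, ⟨φi, ti1, ti2, ti3⟩, fi⟩ := hreal _ si
  have mvr : ∀ j, MemLp (fun x => wr.val j x - (u j x).re) 2 (volume.restrict Ω) := fun j =>
    (wr.val_mem j).sub (hu.val_mem j).re
  have mvi : ∀ j, MemLp (fun x => wi.val j x - (u j x).im) 2 (volume.restrict Ω) := fun j =>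
    (wi.val_mem j).sub (hu.val_mem j).im
  have mdr : ∀ i j, MemLp (fun x => wr.der i j x - (du i j x).re) 2 (volume.restrict Ω) :=
    fun i j => (wr.der_mem i j).sub (hu.der_mem i j).re
  have mdi : ∀ i j, MemLp (fun x => wi.der i j x - (du i j x).im) 2 (volume.restrict Ω) :=
    fun i j => (wi.der_mem i j).sub (hu.der_mem i j).im
  refine ⟨fun j => cpx Ω (fun x => wr.val j x - (u j x).re) (fun x => wi.val j x - (u j x).im),
    fun i j => cpx Ω (fun x => wr.der i j x - (du i j x).re)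
      (fun x => wi.der i j x - (du i j x).im), fun j => ?_, fun g hg => ?_⟩
  · exact ch10_cpx ho hb (mvr j) (mvi j) (fun i => mdr i j) (fun i => mdi i j)
      (fun n => tr1 n j) (fun n => ti1 n j) (tr2 j) (ti2 j) (fun i => tr3 i j) (fun i => ti3 i j)
  · have hgr : ∀ j, ContDiff ℝ ∞ (fun y => (g j y).re) := fun j =>
      Complex.reCLM.contDiff.comp (hg j)
    have hgi : ∀ j, ContDiff ℝ ∞ (fun y => (g j y).im) := fun j =>
      Complex.imCLM.contDiff.comp (hg j)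
    have hG : ∀ i j, MemLp (fun x => du i j x + cpx Ω (fun x => wr.der i j x - (du i j x).re)
      (fun x => wi.der i j x - (du i j x).im) x) 2 (volume.restrict Ω) := by
      intro i j
      exact (hu.der_mem i j).add ((cpx_memLp ho (mdr i j) (mdi i j)).restrict Ω)
    have er : ∀ H : Fin 3 → Fin 3 → E3 → ℝ, form Ω lam₂ mu₂ (fun i j x =>
        (du i j x + cpx Ω (fun x => wr.der i j x - (du i j x).re)
      (fun x => wi.der i j x - (du i j x).im) x).re) H =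
        form Ω lam₂ mu₂ wr.der H := by
      intro H
      refine form_congr_on ho fun i j x hx => ?_
      rw [Complex.add_re, cpx_re hx]
      ring
    have ei : ∀ H : Fin 3 → Fin 3 → E3 → ℝ, form Ω lam₂ mu₂ (fun i j x =>
        (du i j x + cpx Ω (fun x => wr.der i j x - (du i j x).re)
      (fun x => wi.der i j x - (du i j x).im) x).im) H =
        form Ω lam₂ mu₂ wi.der H := by
      intro H
      refine form_congr_on ho fun i j x hx => ?_
      rw [Complex.add_im, cpx_im hx]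
      ring
    rw [cform_split ho hb hl2 hm2 hG hg, cform_split ho hb hl1 hm1 hu.der_mem hg, er, er, ei, ei,
      fr _ hgr, fr _ hgi, fi _ hgr, fi _ hgi]
    rfl

/-- real transfer from equality of the displacement-to-traction maps and coercivity. -/
theorem real_transfer' {Ω : Set E3} (hop : IsOpen Ω) (hb : Bornology.IsBounded Ω)
    {lam₁ mu₁ lam₂ mu₂ : E3 → ℝ}
    (hA₂ : SC Ω lam₂ mu₂) (hDN : SameDN Ω lam₁ mu₁ lam₂ mu₂) (u : H1 Ω)
    (hu : WeakSol lam₁ mu₁ u) :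
    ∃ w : H1 Ω, SameTrace w u ∧ ∀ g : Fin 3 → E3 → ℝ, (∀ j, ContDiff ℝ ∞ (g j)) →
      form Ω lam₂ mu₂ w.der (fun i j => pd i (g j)) =
        form Ω lam₁ mu₁ u.der (fun i j => pd i (g j)) := by
  have ho := hop.measurableSet
  have key : ∀ g : H1 Ω, ∃ w : H1 Ω, SameTrace w u ∧ WeakSol lam₂ mu₂ w ∧
      form Ω lam₁ mu₁ u.der g.der = form Ω lam₂ mu₂ w.der g.der := by
    intro g
    obtain ⟨w, h1, h2, h3⟩ := (hDN u g (form Ω lam₁ mu₁ u.der g.der)).1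
      ⟨u, sameTrace_refl u, hu, rfl⟩
    exact ⟨w, h1, h2, h3⟩
  obtain ⟨w, hw1, hw2, -⟩ := key (ofSmooth hop hb (fun _ _ => 0) (fun _ => contDiff_const))
  refine ⟨w, hw1, fun g hg => ?_⟩
  obtain ⟨w', h1, h2, h3⟩ := key (ofSmooth hop hb g hg)
  obtain ⟨c, hc, hco⟩ := hA₂.coer
  have hl := hA₂.lam_smooth.continuous
  have hm := hA₂.mu_smooth.continuous
  have h5 := BD.Rough.coer_diff ho hb hl hm hco hw1 h1
  have hz : form Ω lam₂ mu₂ (fun i j x => w.der i j x - w'.der i j x)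
      (fun i j x => w.der i j x - w'.der i j x) = 0 := by
    obtain ⟨φ, hφ, ht⟩ := BD.Rough.approx_diff hb hw1 h1
    have mz : BD.MemG Ω (fun i j x => w.der i j x - w'.der i j x) :=
      BD.MemG.sub w.der_mem w'.der_mem
    have t1 := BD.form_tendsto ho hb hl hm (D := fun n i j => pd i (φ n j)) mz mz
      (fun n => BD.Rough.memG_test hb (hφ n)) ht
    have t0 : ∀ n, form Ω lam₂ mu₂ (fun i j x => w.der i j x - w'.der i j x)
        (fun i j => pd i (φ n j)) = 0 := by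
      intro n
      rw [BD.form_sub_left ho hb hl hm (BD.Rough.memG_test hb (hφ n)) w.der_mem w'.der_mem,
        hw2 _ (hφ n), h2 _ (hφ n), sub_zero]
    simp_rw [t0] at t1
    exact tendsto_nhds_unique t1 tendsto_const_nhds
  rw [hz] at h5
  have hnn : ∀ i j, 0 ≤ ∫ x in Ω, (w.der i j x - w'.der i j x) ^ 2 := fun i j =>
    integral_nonneg fun _ => sq_nonneg _
  have hsum : ∑ i, ∑ j, ∫ x in Ω, (w.der i j x - w'.der i j x) ^ 2 = 0 := by
    apply le_antisymm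
    · by_contra hcon
      push Not at hcon
      have := mul_pos hc hcon
      linarith
    · exact Finset.sum_nonneg fun i _ => Finset.sum_nonneg fun j _ => hnn i j
  have heach : ∀ i j, ∫ x in Ω, (w.der i j x - w'.der i j x) ^ 2 = 0 := by
    intro i j
    have a1 := (Finset.sum_eq_zero_iff_of_nonneg (fun i _ =>
      Finset.sum_nonneg fun j _ => hnn i j)).mp hsum i (Finset.mem_univ i)
    exact (Finset.sum_eq_zero_iff_of_nonneg (fun j _ => hnn i j)).mp a1 j (Finset.mem_univ j)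
  have hae : ∀ i j, ∀ᵐ x ∂(volume.restrict Ω), w.der i j x = w'.der i j x := by
    intro i j
    have a2 := (integral_eq_zero_iff_of_nonneg (fun _ => sq_nonneg _)
      (BD.Rough.sq_int' ((w.der_mem i j).sub (w'.der_mem i j)))).1 (heach i j)
    filter_upwards [a2] with x hx
    have : (w.der i j x - w'.der i j x) ^ 2 = 0 := hx
    exact sub_eq_zero.1 (pow_eq_zero_iff (two_ne_zero) |>.1 this)
  have h4 : ∀ᵐ x ∂(volume.restrict Ω), ∀ i j,
      w.der i j x + w.der j i x = w'.der i j x + w'.der j i x := by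
    have : ∀ᵐ x ∂(volume.restrict Ω), ∀ i j, w.der i j x = w'.der i j x := by
      rw [ae_all_iff]; intro i; rw [ae_all_iff]; intro j; exact hae i j
    filter_upwards [this] with x hx i j
    rw [hx i j, hx j i]
  rw [form_congr_strain h4]
  exact h3.symm

/-- the theorem for general domains, internal form. -/
theorem global' {Ω : Set E3} (ho : IsOpen Ω) (hb : Bornology.IsBounded Ω)
    (hden : frontier Ω ⊆ closure {x | ∃ n : E3, ‖n‖ = 1 ∧ BD.Rough.TanAt Ω x n})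
    {lam₁ mu₁ lam₂ mu₂ : E3 → ℝ} (h1 : SC Ω lam₁ mu₁) (h2 : SC Ω lam₂ mu₂)
    (hDN : SameDN Ω lam₁ mu₁ lam₂ mu₂) :
    ∀ x ∈ Ω, lam₁ x = lam₂ x ∧ mu₁ x = mu₂ x :=
  interior ho hb h1.lam_smooth h1.mu_smooth h2.lam_smooth h2.mu_smooth
    (fun x hx => ⟨h1.mu_pos x hx, h1.sum_pos x hx⟩)
    (fun x hx => ⟨h2.mu_pos x hx, h2.sum_pos x hx⟩)
    (transfer_of_real ho hb h1.lam_smooth.continuous h1.mu_smooth.continuous
      h2.lam_smooth.continuous h2.mu_smooth.continuous (real_transfer' ho hb h2 hDN))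
    (BD.Rough.BD1' ho hb hden h1 h2 hDN)

end Vale.Agent.P136.Rough
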