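import Vale.Agent.P136.H222.Geom

set_option linter.all false

/-! Boundary determination to first order for coercive pairs on general domains. -/

open MeasureTheory Filter Topology
open scoped ContDiff InnerProductSpace

namespace Vale.Agent.P136.BD.Rough

open Vale.Agent.P136.Exist.Rough (SC)

/-- One-sided comparison. -/
theorem one_sided' {Ω : Set E3} (ho : IsOpen Ω) (hb : Bornology.IsBounded Ω)
    {lam₁ mu₁ lam₂ mu₂ : E3 → ℝ} (h1 : SC Ω lam₁ mu₁)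
    (h2 : SC Ω lam₂ mu₂) (hS : SameDN Ω lam₁ mu₁ lam₂ mu₂) {x0 : E3}
    (hx : x0 ∈ frontier Ω) {n : E3} {c r0 : ℝ} (hn : ‖n‖ = 1) (hc : 0 < c) (hc1 : c ≤ 1)
    (hr0 : 0 < r0)
    (hg1 : ∀ r, 0 < r → r < r0 → ∀ x ∈ Ω, c * (r + ‖x - x0‖) < ‖x - (x0 + r • n)‖)
    (hg2 : ∀ r, 0 < r → r < r0 → Metric.ball (x0 - (2 * r) • n) r ⊆ Ω)
    (hg3 : ∀ η > 0, ∃ K, 0 ≤ K ∧ ∀ x ∈ Ω, ⟪n, x - x0⟫_ℝ ≤ η * ‖x - x0‖ + K * ‖x - x0‖ ^ 2)
    (hg4 : ∀ f : E3 → ℝ, ContDiff ℝ ∞ f → (∀ z ∈ frontier Ω, f z = 0) →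
        ∀ v, ⟪n, v⟫_ℝ = 0 → fderiv ℝ f x0 v = 0)
    {Γ : Fin 3 → E3 → ℝ} (hΓ : ∀ j, HomOut 2 (Γ j))
    (hfrz : ∀ w : E3, 1 < ‖w‖ → ∀ j, frz (lam₂ x0) (mu₂ x0) Γ j w = 0)
    {Q : E3 → ℝ} (hQc : Continuous Q) (hQ0 : ∀ w, 0 ≤ Q w) {CQ : ℝ}
    (hQ1 : ∀ w, Q w ≤ CQ * ((1 + ‖w‖) ^ 6)⁻¹) (hQ2 : 0 < Q (-((3 / c) • n)))
    {f : E3 → ℝ} (hf : ContDiff ℝ ∞ f) {κ M : ℝ} (hκ : 0 < κ) (hM : 0 ≤ M)
    (hD : ∀ x ∈ Ω, ∀ w : E3, 1 < ‖w‖ →
      fq (lam₁ x - lam₂ x) (mu₁ x - mu₂ x) (fun i j => pd i (Γ j) w) (fun i j => pd i (Γ j) w) ≤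
        κ * (f x * Q w) + M * (‖x - x0‖ ^ 2 * eq2 (fun i j => pd i (Γ j) w))) :
    0 ≤ f x0 ∧ ((∀ z ∈ frontier Ω, f z = 0) → fderiv ℝ f x0 n ≤ 0) := by
  have hm : MeasurableSet Ω := ho.measurableSet
  obtain ⟨CE, hCE, hEI⟩ := energy_ineq' ho hb h1 h2 hS x0
  obtain ⟨Ce, hCe, herr⟩ := bd_err hb x0
  obtain ⟨C6, hC6, hC6b⟩ := eq2_bound hΓ
  -- continuity of `Q` at the base point
  obtain ⟨ε', hε', hQε⟩ : ∃ ε' > 0, ∀ w, ‖w - (-((3 / c) • n))‖ < ε' →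
      Q (-((3 / c) • n)) / 2 ≤ Q w := by
    have hlt : Q (-((3 / c) • n)) / 2 < Q (-((3 / c) • n)) := by linarith
    have := hQc.continuousAt (x := -((3 / c) • n)) |>.eventually (lt_mem_nhds hlt)
    rw [Metric.eventually_nhds_iff] at this
    obtain ⟨ε', h, h'⟩ := this
    exact ⟨ε', h, fun w hw => (h' (by rw [dist_eq_norm]; exact hw)).le⟩
  set r1 : ℝ := min r0 1 with hr1
  have hr1pos : 0 < r1 := lt_min hr0 one_pos
  have hr10 : ∀ r, r < r1 → r < r0 := fun r h => h.trans_le (min_le_left _ _)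
  have hr11 : ∀ r, r < r1 → r < 1 := fun r h => h.trans_le (min_le_right _ _)
  -- the density
  set P : ℝ → E3 → ℝ := fun r x => (c * r)⁻¹ ^ 2 * Q ((c * r)⁻¹ • (x - (x0 + r • n))) with hP
  have hout : ∀ r, 0 < r → r < r1 → ∀ x ∈ Ω, (r + ‖x - x0‖) / r <
      ‖(c * r)⁻¹ • (x - (x0 + r • n))‖ := by
    intro r hr hr' x hx
    rw [norm_smul, norm_inv, Real.norm_of_nonneg (by positivity), inv_mul_eq_div,
      div_lt_div_iff₀ hr (by positivity)]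
    have := hg1 r hr (hr10 r hr') x hx
    (by_contra nlg; linarith only [nlg, mul_pos (sub_pos.2 hr) (sub_pos.2 this), mul_nonneg (sub_nonneg.2 (not_lt.1 nlg)) (sub_nonneg.2 hc1), mul_nonneg (sub_nonneg.2 (not_lt.1 nlg)) (le_of_lt (sub_pos.2 hc))])
  have hout1 : ∀ r, 0 < r → r < r1 → ∀ x ∈ Ω, 1 < ‖(c * r)⁻¹ • (x - (x0 + r • n))‖ := by
    intro r hr hr' x hx
    refine lt_of_le_of_lt ?_ (hout r hr hr' x hx)
    rw [le_div_iff₀ hr, one_mul]
    linarith [norm_nonneg (x - x0)]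
  have hdec : ∀ r, 0 < r → r < r1 → ∀ x ∈ Ω, ∀ C' : ℝ, 0 ≤ C' →
      (c * r)⁻¹ ^ 2 * (C' * ((1 + ‖(c * r)⁻¹ • (x - (x0 + r • n))‖) ^ 6)⁻¹) ≤
        (C' / c ^ 2) * (r ^ 4 * ((r + ‖x - x0‖) ^ 6)⁻¹) := by
    intro r hr hr' x hx C' hC'
    have h3 := hout r hr hr' x hx
    have hpos : 0 < r + ‖x - x0‖ := by (clear * - hr; positivity)
    have h4 : ((r + ‖x - x0‖) / r) ^ 6 ≤ (1 + ‖(c * r)⁻¹ • (x - (x0 + r • n))‖) ^ 6 :=
      pow_le_pow_left₀ (by (clear * - hr; positivity)) (by linarith) 6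
    have h5 : ((1 + ‖(c * r)⁻¹ • (x - (x0 + r • n))‖) ^ 6)⁻¹ ≤ (((r + ‖x - x0‖) / r) ^ 6)⁻¹ :=
      inv_anti₀ (by (clear * - hr; positivity)) h4
    calc (c * r)⁻¹ ^ 2 * (C' * ((1 + ‖(c * r)⁻¹ • (x - (x0 + r • n))‖) ^ 6)⁻¹)
        ≤ (c * r)⁻¹ ^ 2 * (C' * (((r + ‖x - x0‖) / r) ^ 6)⁻¹) := by
          apply mul_le_mul_of_nonneg_left _ (by positivity)
          exact mul_le_mul_of_nonneg_left h5 hC'
      _ = (C' / c ^ 2) * (r ^ 4 * ((r + ‖x - x0‖) ^ 6)⁻¹) := by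
          field_simp
  have hCQ : 0 ≤ CQ := by
    have h3 := (hQ0 0).trans (hQ1 0)
    simp at h3
    exact h3
  -- apply the endgame
  refine bd_end' ho hb hx hn hr1pos (fun r hr hr' => hg2 r hr (hr10 r hr')) hg3 hg4 hf P
    (ε := min 1 (c * ε')) (c1 := Q (-((3 / c) • n)) / (2 * c ^ 2)) (C1 := CQ / c ^ 2)
    (C2 := (CE + M) * (C6 / c ^ 2) * Ce / κ) (lt_min one_pos (by positivity)) (min_le_left _ _)
    (by positivity) ?_ ?_ ?_ ?_
  · intro r hr hr'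
    have c0 : Continuous fun x : E3 => (c * r)⁻¹ • (x - (x0 + r • n)) := by fun_prop
    exact continuous_const.mul (hQc.comp c0)
  · intro r hr hr' x hx
    refine ⟨mul_nonneg (sq_nonneg _) (hQ0 _), ?_⟩
    exact (mul_le_mul_of_nonneg_left (hQ1 _) (sq_nonneg _)).trans (hdec r hr hr' x hx CQ hCQ)
  · intro r hr hr' x hx
    have h3 : ‖(c * r)⁻¹ • (x - (x0 + r • n)) - (-((3 / c) • n))‖ < ε' := by
      have e : (c * r)⁻¹ • (x - (x0 + r • n)) - (-((3 / c) • n)) =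
          (c * r)⁻¹ • (x - (x0 - (2 * r) • n)) := by
        have e2 : (3 / c) • n = (c * r)⁻¹ • ((3 * r) • n) := by
          rw [smul_smul]
          congr 1
          field_simp
        rw [e2, sub_neg_eq_add, ← smul_add]
        congr 1
        module
      rw [e, norm_smul, norm_inv, Real.norm_of_nonneg (by positivity), inv_mul_lt_iff₀ (by positivity)]
      rw [Metric.mem_ball, dist_eq_norm] at hx
      refine hx.trans_le ?_
      calc min 1 (c * ε') * r ≤ (c * ε') * r := mul_le_mul_of_nonneg_right (min_le_right _ _) hr.le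
        _ = c * r * ε' := by ring
    have h4 := hQε _ h3
    calc Q (-((3 / c) • n)) / (2 * c ^ 2) * (r ^ 2)⁻¹ = (c * r)⁻¹ ^ 2 * (Q (-((3 / c) • n)) / 2) := by
          field_simp
      _ ≤ P r x := mul_le_mul_of_nonneg_left h4 (sq_nonneg _)
  · intro r hr hr'
    set b : ℝ := (c * r)⁻¹ with hbdef
    set y : E3 := x0 + r • n with hy
    set Γr : Fin 3 → E3 → ℝ := fun j => scal b y (Γ j) with hΓr
    have hΓs : ∀ j, ContDiff ℝ ∞ (Γ j) := fun j => (hΓ j).smooth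
    have hΓrs : ∀ j, ContDiff ℝ ∞ (Γr j) := fun j => scal_contDiff (hΓs j)
    have hpd : ∀ i j x, pd i (Γr j) x = b * pd i (Γ j) (b • (x - y)) := by
      intro i j x
      simp only [hΓr]
      rw [pd_scal (hΓs j)]
      rfl
    have hE := hEI Γr hΓrs (fun φ hφ => frozen_of_pde hΓrs (fun x hx j => by
      rw [hΓr, frz_scal hΓs, hfrz _ (hout1 r hr hr' x hx), mul_zero]) φ hφ)
    simp_rw [hpd, eq2_smul, fq_smul] at hE
    -- integrability
    have cpd : ∀ i j, Continuous (pd i (Γ j)) := fun i j =>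
      (pd_contDiff_infty (hΓs j) i).continuous
    have csc : Continuous (fun x : E3 => b • (x - y)) := by fun_prop
    have ceq : Continuous (fun x : E3 => eq2 (fun i j => pd i (Γ j) (b • (x - y)))) := by
      unfold eq2
      refine continuous_finsetSum _ fun i _ => continuous_finsetSum _ fun j _ => ?_
      exact ((((cpd i j).comp csc).add ((cpd j i).comp csc)).div_const 2).pow 2
    have cl1 := h1.lam_smooth.continuous
    have cm1 := h1.mu_smooth.continuous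
    have cl2 := h2.lam_smooth.continuous
    have cm2 := h2.mu_smooth.continuous
    have cfq : Continuous (fun x : E3 => fq (lam₁ x - lam₂ x) (mu₁ x - mu₂ x)
        (fun i j => pd i (Γ j) (b • (x - y))) (fun i j => pd i (Γ j) (b • (x - y)))) := by
      unfold fq
      have cp : ∀ i j, Continuous (fun x => pd i (Γ j) (b • (x - y))) := fun i j =>
        (cpd i j).comp csc
      fun_prop
    have cP : Continuous (fun x => f x * P r x) :=
      hf.continuous.mul (continuous_const.mul (hQc.comp csc))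
    have cN : Continuous (fun x : E3 => ‖x - x0‖ ^ 2 *
        (b ^ 2 * eq2 (fun i j => pd i (Γ j) (b • (x - y))))) := by
      have : Continuous (fun x : E3 => ‖x - x0‖ ^ 2) := by fun_prop
      exact this.mul (continuous_const.mul ceq)
    have iP := integrableOn_of_cont hb cP
    have iN := integrableOn_of_cont hb cN
    have iF := integrableOn_of_cont hb (continuous_const.mul cfq : Continuous fun x => b ^ 2 * _)
    -- pointwise comparison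
    have hcmp : ∫ x in Ω, b ^ 2 * fq (lam₁ x - lam₂ x) (mu₁ x - mu₂ x)
        (fun i j => pd i (Γ j) (b • (x - y))) (fun i j => pd i (Γ j) (b • (x - y))) ≤
        κ * (∫ x in Ω, f x * P r x) + M * ∫ x in Ω, ‖x - x0‖ ^ 2 *
        (b ^ 2 * eq2 (fun i j => pd i (Γ j) (b • (x - y)))) := by
      rw [← integral_const_mul, ← integral_const_mul, ← integral_add (iP.const_mul κ)
        (iN.const_mul M)]
      refine setIntegral_mono_on iF ((iP.const_mul κ).add (iN.const_mul M)) hm fun x hx => ?_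
      have h3 := hD x hx _ (hout1 r hr hr' x hx)
      have h4 := mul_le_mul_of_nonneg_left h3 (sq_nonneg b)
      refine h4.trans (le_of_eq ?_)
      simp only [hP]
      ring
    have hmaj : ∫ x in Ω, ‖x - x0‖ ^ 2 * (b ^ 2 * eq2 (fun i j => pd i (Γ j) (b • (x - y)))) ≤
        (C6 / c ^ 2) * (Ce * r ^ 3) := by
      have iR : IntegrableOn (fun x : E3 => (C6 / c ^ 2) *
          (‖x - x0‖ ^ 2 * (r ^ 4 * ((r + ‖x - x0‖) ^ 6)⁻¹))) Ω := by
        apply integrableOn_of_cont hb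
        have c1 : Continuous (fun x : E3 => ‖x - x0‖ ^ 2) := by fun_prop
        exact continuous_const.mul (c1.mul (maj_continuous x0 hr))
      calc ∫ x in Ω, ‖x - x0‖ ^ 2 * (b ^ 2 * eq2 (fun i j => pd i (Γ j) (b • (x - y))))
          ≤ ∫ x in Ω, (C6 / c ^ 2) * (‖x - x0‖ ^ 2 * (r ^ 4 * ((r + ‖x - x0‖) ^ 6)⁻¹)) := by
            refine setIntegral_mono_on iN iR hm fun x hx => ?_
            have h3 := (mul_le_mul_of_nonneg_left (hC6b (b • (x - y))) (sq_nonneg b)).trans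
              (hdec r hr hr' x hx C6 hC6.le)
            have h4 := mul_le_mul_of_nonneg_left h3 (sq_nonneg ‖x - x0‖)
            refine h4.trans (le_of_eq ?_)
            ring
        _ = (C6 / c ^ 2) * ∫ x in Ω, ‖x - x0‖ ^ 2 * (r ^ 4 * ((r + ‖x - x0‖) ^ 6)⁻¹) :=
            integral_const_mul _ _
        _ ≤ (C6 / c ^ 2) * (Ce * r ^ 3) :=
            mul_le_mul_of_nonneg_left (herr r hr (hr11 r hr')) (by positivity)
    set N := ∫ x in Ω, ‖x - x0‖ ^ 2 * (b ^ 2 * eq2 (fun i j => pd i (Γ j) (b • (x - y)))) with hN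
    have hfin : - ((CE + M) * ((C6 / c ^ 2) * (Ce * r ^ 3))) ≤ κ * ∫ x in Ω, f x * P r x := by
      have h3 := hE.trans hcmp
      have h4 : (CE + M) * N ≤ (CE + M) * ((C6 / c ^ 2) * (Ce * r ^ 3)) :=
        mul_le_mul_of_nonneg_left hmaj (by (clear * - hCE hM; positivity))
      linarith only [h4, h3]
    have e5 : -((CE + M) * (C6 / c ^ 2) * Ce / κ) * r ^ 3 =
        κ⁻¹ * (- ((CE + M) * ((C6 / c ^ 2) * (Ce * r ^ 3)))) := by
      field_simp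
    rw [e5]
    calc κ⁻¹ * (- ((CE + M) * ((C6 / c ^ 2) * (Ce * r ^ 3)))) ≤
        κ⁻¹ * (κ * ∫ x in Ω, f x * P r x) := mul_le_mul_of_nonneg_left hfin (by positivity)
      _ = ∫ x in Ω, f x * P r x := by field_simp
/-- one-sided comparison for `μ` -/
theorem mu_one_sided' {Ω : Set E3} (ho : IsOpen Ω) (hb : Bornology.IsBounded Ω)
    {lam₁ mu₁ lam₂ mu₂ : E3 → ℝ} (h1 : SC Ω lam₁ mu₁)
    (h2 : SC Ω lam₂ mu₂) (hS : SameDN Ω lam₁ mu₁ lam₂ mu₂) {x0 : E3}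
    (hx : x0 ∈ frontier Ω) {n : E3} {c r0 : ℝ} (hn : ‖n‖ = 1) (hc : 0 < c) (hc1 : c ≤ 1)
    (hr0 : 0 < r0)
    (hg1 : ∀ r, 0 < r → r < r0 → ∀ x ∈ Ω, c * (r + ‖x - x0‖) < ‖x - (x0 + r • n)‖)
    (hg2 : ∀ r, 0 < r → r < r0 → Metric.ball (x0 - (2 * r) • n) r ⊆ Ω)
    (hg3 : ∀ η > 0, ∃ K, 0 ≤ K ∧ ∀ x ∈ Ω, ⟪n, x - x0⟫_ℝ ≤ η * ‖x - x0‖ + K * ‖x - x0‖ ^ 2)
    (hg4 : ∀ f : E3 → ℝ, ContDiff ℝ ∞ f → (∀ z ∈ frontier Ω, f z = 0) →
        ∀ v, ⟪n, v⟫_ℝ = 0 → fderiv ℝ f x0 v = 0) :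
    0 ≤ mu₁ x0 - mu₂ x0 ∧ ((∀ z ∈ frontier Ω, mu₁ z - mu₂ z = 0) →
      fderiv ℝ (fun x => mu₁ x - mu₂ x) x0 n ≤ 0) := by
  obtain ⟨C6, hC6, hC6b⟩ := eq2_bound gMu_hom
  have hc3 := three_div hc hc1
  have hcd : ∀ i j, Continuous (pd i (gMu j)) := fun i j =>
    (pd_contDiff_infty (gMu_hom j).smooth i).continuous
  have hQpos : 0 < eq2 (fun i j => pd i (gMu j) (-((3 / c) • n))) := by
    have h3 := pp_axis hn hc3
    have h4 : dd n (dd n (lap KK)) (-((3 / c) • n)) =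
        ∑ i, ∑ j, n i * n j * ((pd i (gMu j) (-((3 / c) • n)) +
          pd j (gMu i) (-((3 / c) • n))) / 2) := by
      have e1 : dd n (dd n (lap KK)) (-((3 / c) • n)) =
          ∑ i, ∑ j, n i * n j * pd i (pd j (lap KK)) (-((3 / c) • n)) := by
        rw [dd_eq_sum' n (dd n (lap KK))]
        simp only
        refine Finset.sum_congr rfl fun i _ => ?_
        rw [dd_eq_sum' n (lap KK), pd_sum' _ (fun j _ =>
          (sm_diff (pd_contDiff_infty lapKK_contDiff j) _).const_mul (n j))]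
        rw [Finset.mul_sum]
        refine Finset.sum_congr rfl fun j _ => ?_
        rw [pd_const_mul (sm_diff (pd_contDiff_infty lapKK_contDiff j) _)]
        ring
      rw [e1]
      simp only [gMu, Fin.sum_univ_three]
      ring
    by_contra hne
    have h0 : eq2 (fun i j => pd i (gMu j) (-((3 / c) • n))) = 0 :=
      le_antisymm (not_lt.mp hne) (eq2_nonneg _)
    unfold eq2 at h0
    have h5 : ∀ i j, (pd i (gMu j) (-((3 / c) • n)) + pd j (gMu i) (-((3 / c) • n))) / 2 = 0 := by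
      intro i j
      have h6 := (Finset.sum_eq_zero_iff_of_nonneg (fun i _ =>
        Finset.sum_nonneg fun j _ => sq_nonneg _)).mp h0 i (Finset.mem_univ i)
      have h7 := (Finset.sum_eq_zero_iff_of_nonneg (fun j _ => sq_nonneg _)).mp h6 j
        (Finset.mem_univ j)
      exact pow_eq_zero_iff (two_ne_zero) |>.mp h7
    rw [h4] at h3
    simp [h5] at h3
  refine one_sided' ho hb h1 h2 hS hx hn hc hc1 hr0 hg1 hg2 hg3 hg4 gMu_hom
    (fun w hw j => gMu_frz _ _ hw j) (Q := fun w => eq2 (fun i j => pd i (gMu j) w)) ?_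
    (fun w => eq2_nonneg _) hC6b hQpos (f := fun x => mu₁ x - mu₂ x)
    (h1.mu_smooth.sub h2.mu_smooth) (κ := 2) (M := 0) (by norm_num) le_rfl ?_
  · unfold eq2
    fun_prop
  · intro x _ w hw
    rw [fq_self, gMu_div hw]
    linarith

/-- one-sided comparison for `λ` -/
theorem lam_one_sided' {Ω : Set E3} (ho : IsOpen Ω) (hb : Bornology.IsBounded Ω)
    {lam₁ mu₁ lam₂ mu₂ : E3 → ℝ} (h1 : SC Ω lam₁ mu₁)
    (h2 : SC Ω lam₂ mu₂) (hS : SameDN Ω lam₁ mu₁ lam₂ mu₂) {x0 : E3}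
    (hx : x0 ∈ frontier Ω) {n : E3} {c r0 : ℝ} (hn : ‖n‖ = 1) (hc : 0 < c) (hc1 : c ≤ 1)
    (hr0 : 0 < r0)
    (hg1 : ∀ r, 0 < r → r < r0 → ∀ x ∈ Ω, c * (r + ‖x - x0‖) < ‖x - (x0 + r • n)‖)
    (hg2 : ∀ r, 0 < r → r < r0 → Metric.ball (x0 - (2 * r) • n) r ⊆ Ω)
    (hg3 : ∀ η > 0, ∃ K, 0 ≤ K ∧ ∀ x ∈ Ω, ⟪n, x - x0⟫_ℝ ≤ η * ‖x - x0‖ + K * ‖x - x0‖ ^ 2)
    (hg4 : ∀ f : E3 → ℝ, ContDiff ℝ ∞ f → (∀ z ∈ frontier Ω, f z = 0) →
        ∀ v, ⟪n, v⟫_ℝ = 0 → fderiv ℝ f x0 v = 0)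
    {M : ℝ} (hM : 0 ≤ M) (hmu : ∀ x ∈ Ω, mu₁ x - mu₂ x ≤ M * ‖x - x0‖ ^ 2) :
    0 ≤ lam₁ x0 - lam₂ x0 ∧ ((∀ z ∈ frontier Ω, lam₁ z - lam₂ z = 0) →
      fderiv ℝ (fun x => lam₁ x - lam₂ x) x0 n ≤ 0) := by
  have hcl : x0 ∈ closure Ω := frontier_subset_closure hx
  have hm0 := h2.mu_pos x0 hcl
  have hlm : 0 < lam₂ x0 + mu₂ x0 := h2.sum_pos x0 hcl
  set k : ℝ := mu₂ x0 / (lam₂ x0 + mu₂ x0) with hk
  have hk0 : 0 < k := by positivity
  have hhom : ∀ j, HomOut 2 (gLa k n j) := gLa_hom k n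
  obtain ⟨C6, hC6, hC6b⟩ := eq2_bound hhom
  have hc3 := three_div hc hc1
  have s4 : ContDiff ℝ ∞ (dd n (dd n (lap KK))) :=
    dd_contDiff_infty (dd_contDiff_infty lapKK_contDiff n) n
  have hQle : ∀ w, (k * dd n (dd n (lap KK)) w) ^ 2 ≤ (3 * C6) * ((1 + ‖w‖) ^ 6)⁻¹ := by
    intro w
    rw [← gLa_div k n w]
    have := tr_sq_le (fun i j => pd i (gLa k n j) w)
    have h3 := hC6b w
    calc (∑ i, pd i (gLa k n i) w) ^ 2 ≤ 3 * eq2 (fun i j => pd i (gLa k n j) w) := this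
      _ ≤ (3 * C6) * ((1 + ‖w‖) ^ 6)⁻¹ := by linarith only [h3]
  refine one_sided' ho hb h1 h2 hS hx hn hc hc1 hr0 hg1 hg2 hg3 hg4 hhom
    (fun w hw j => gLa_frz hlm.ne' n hw j)
    (Q := fun w => (k * dd n (dd n (lap KK)) w) ^ 2) ?_
    (fun w => sq_nonneg _) hQle ?_ (f := fun x => lam₁ x - lam₂ x)
    (h1.lam_smooth.sub h2.lam_smooth) (κ := 1) (M := 2 * M) (by norm_num) (by positivity) ?_
  · exact (continuous_const.mul s4.continuous).pow 2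
  · have := pp_axis hn hc3
    (clear * - hm0 hlm this; positivity)
  · intro x hx w hw
    rw [fq_self, gLa_div]
    have h3 := hmu x hx
    have h4 := eq2_nonneg (fun i j => pd i (gLa k n j) w)
    linarith only [mul_le_mul_of_nonneg_right h3 h4]
/-- Boundary determination to first order at the points with a tangent plane, and on the whole
boundary if they are dense. -/
theorem BD1' {Ω : Set E3} (ho : IsOpen Ω) (hb : Bornology.IsBounded Ω)
    (hden : frontier Ω ⊆ closure {x | ∃ n : E3, ‖n‖ = 1 ∧ TanAt Ω x n})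
    {lam₁ mu₁ lam₂ mu₂ : E3 → ℝ} (h1 : SC Ω lam₁ mu₁)
    (h2 : SC Ω lam₂ mu₂) (hS : SameDN Ω lam₁ mu₁ lam₂ mu₂) :
    ∀ x ∈ frontier Ω, mu₁ x = mu₂ x ∧ lam₁ x = lam₂ x ∧
      fderiv ℝ mu₁ x = fderiv ℝ mu₂ x ∧ fderiv ℝ lam₁ x = fderiv ℝ lam₂ x := by
  have hS' := sameDN_symm hS
  have ext0 : ∀ f : E3 → ℝ, Continuous f →
      (∀ x n, ‖n‖ = 1 → TanAt Ω x n → f x = 0) → ∀ x ∈ frontier Ω, f x = 0 := by
    intro f hf h x hx
    have hcl : IsClosed {x | f x = 0} := isClosed_eq hf continuous_const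
    have hsub : {x | ∃ n : E3, ‖n‖ = 1 ∧ TanAt Ω x n} ⊆ {x | f x = 0} := by
      rintro y ⟨n, hn, hy⟩
      exact h y n hn hy
    exact closure_minimal hsub hcl (hden hx)
  have ext1 : ∀ f : E3 → ℝ, ContDiff ℝ ∞ f →
      (∀ x n, ‖n‖ = 1 → TanAt Ω x n → fderiv ℝ f x = 0) → ∀ x ∈ frontier Ω, fderiv ℝ f x = 0 := by
    intro f hf h x hx
    have hcl : IsClosed {x | fderiv ℝ f x = 0} :=
      isClosed_eq (hf.continuous_fderiv (by simp)) continuous_const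
    have hsub : {x | ∃ n : E3, ‖n‖ = 1 ∧ TanAt Ω x n} ⊆ {x | fderiv ℝ f x = 0} := by
      rintro y ⟨n, hn, hy⟩
      exact h y n hn hy
    exact closure_minimal hsub hcl (hden hx)
  -- values of μ
  have mu0 : ∀ x ∈ frontier Ω, mu₁ x - mu₂ x = 0 := by
    refine ext0 _ (h1.mu_smooth.continuous.sub h2.mu_smooth.continuous) fun x n hn ht => ?_
    have hx := ht.frontier ho hn
    obtain ⟨r0, hr0, hg1, hg2, hg3, hg4⟩ := tan_geom ho hn ht
    have a1 := (mu_one_sided' ho hb h1 h2 hS hx hn (c := 1 / 6) (by norm_num) (by norm_num) hr0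
      hg1 hg2 hg3 hg4).1
    have a2 := (mu_one_sided' ho hb h2 h1 hS' hx hn (c := 1 / 6) (by norm_num) (by norm_num) hr0
      hg1 hg2 hg3 hg4).1
    linarith
  have fderiv_zero : ∀ (f : E3 → ℝ) (x : E3), ContDiff ℝ ∞ f →
      (∀ z ∈ frontier Ω, f z = 0) → ∀ n : E3, ‖n‖ = 1 →
      (∀ f : E3 → ℝ, ContDiff ℝ ∞ f → (∀ z ∈ frontier Ω, f z = 0) →
        ∀ v, ⟪n, v⟫_ℝ = 0 → fderiv ℝ f x v = 0) →
      fderiv ℝ f x n = 0 → fderiv ℝ f x = 0 := by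
    intro f x hf hz n hn hg4 h0
    ext v
    have hv : v = ⟪n, v⟫_ℝ • n + (v - ⟪n, v⟫_ℝ • n) := by abel
    have hperp : ⟪n, v - ⟪n, v⟫_ℝ • n⟫_ℝ = 0 := by
      rw [inner_sub_right, inner_smul_right, real_inner_self_eq_norm_sq, hn]
      ring
    rw [hv, map_add, map_smul, h0, hg4 f hf hz _ hperp]
    simp
  have fderiv_sub_eq : ∀ (f g : E3 → ℝ) (x : E3), ContDiff ℝ ∞ f → ContDiff ℝ ∞ g →
      fderiv ℝ (fun y => f y - g y) x = fderiv ℝ f x - fderiv ℝ g x := by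
    intro f g x hf hg
    exact fderiv_fun_sub (sm_diff hf x) (sm_diff hg x)
  -- gradients of μ
  have mu1 : ∀ x ∈ frontier Ω, fderiv ℝ (fun y => mu₁ y - mu₂ y) x = 0 := by
    refine ext1 _ (h1.mu_smooth.sub h2.mu_smooth) fun x n hn ht => ?_
    have hx := ht.frontier ho hn
    obtain ⟨r0, hr0, hg1, hg2, hg3, hg4⟩ := tan_geom ho hn ht
    have a1 := (mu_one_sided' ho hb h1 h2 hS hx hn (c := 1 / 6) (by norm_num) (by norm_num) hr0
      hg1 hg2 hg3 hg4).2 mu0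
    have a2 := (mu_one_sided' ho hb h2 h1 hS' hx hn (c := 1 / 6) (by norm_num) (by norm_num) hr0
      hg1 hg2 hg3 hg4).2
      (fun z hz => by have := mu0 z hz; linarith)
    rw [fderiv_sub_eq _ _ _ h2.mu_smooth h1.mu_smooth] at a2
    have a1' := a1
    rw [fderiv_sub_eq _ _ _ h1.mu_smooth h2.mu_smooth] at a1'
    refine fderiv_zero _ x (h1.mu_smooth.sub h2.mu_smooth) mu0 n hn hg4 (le_antisymm a1 ?_)
    rw [fderiv_sub_eq _ _ _ h1.mu_smooth h2.mu_smooth]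
    have : (fderiv ℝ mu₂ x - fderiv ℝ mu₁ x) n = - ((fderiv ℝ mu₁ x - fderiv ℝ mu₂ x) n) := by
      simp
    rw [this] at a2
    linarith
  -- second order vanishing of μ₁ - μ₂
  have mu2 : ∀ x0 ∈ frontier Ω, ∃ M : ℝ, 0 ≤ M ∧ ∀ x ∈ Ω, |mu₁ x - mu₂ x| ≤ M * ‖x - x0‖ ^ 2 := by
    intro x0 hx0
    obtain ⟨R, hR⟩ := hb.subset_closedBall x0
    obtain ⟨K, hK0, hK⟩ := taylor2 (h1.mu_smooth.sub h2.mu_smooth) x0 R
    refine ⟨K, hK0, fun x hx => ?_⟩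
    have h3 := hK x (by rw [← dist_eq_norm]; exact Metric.mem_closedBall.mp (hR hx))
    simp only [mu0 x0 hx0, mu1 x0 hx0] at h3
    simpa using h3
  -- values of λ
  have la0 : ∀ x ∈ frontier Ω, lam₁ x - lam₂ x = 0 := by
    refine ext0 _ (h1.lam_smooth.continuous.sub h2.lam_smooth.continuous) fun x n hn ht => ?_
    have hx := ht.frontier ho hn
    obtain ⟨r0, hr0, hg1, hg2, hg3, hg4⟩ := tan_geom ho hn ht
    obtain ⟨M, hM, hMx⟩ := mu2 x hx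
    have a1 := (lam_one_sided' ho hb h1 h2 hS hx hn (c := 1 / 6) (by norm_num) (by norm_num) hr0
      hg1 hg2 hg3 hg4 hM (fun y hy => (le_abs_self _).trans (hMx y hy))).1
    have a2 := (lam_one_sided' ho hb h2 h1 hS' hx hn (c := 1 / 6) (by norm_num) (by norm_num) hr0
      hg1 hg2 hg3 hg4 hM
      (fun y hy => (le_abs_self _).trans (by rw [abs_sub_comm]; exact hMx y hy))).1
    linarith
  have la1 : ∀ x ∈ frontier Ω, fderiv ℝ (fun y => lam₁ y - lam₂ y) x = 0 := by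
    refine ext1 _ (h1.lam_smooth.sub h2.lam_smooth) fun x n hn ht => ?_
    have hx := ht.frontier ho hn
    obtain ⟨r0, hr0, hg1, hg2, hg3, hg4⟩ := tan_geom ho hn ht
    obtain ⟨M, hM, hMx⟩ := mu2 x hx
    have a1 := (lam_one_sided' ho hb h1 h2 hS hx hn (c := 1 / 6) (by norm_num) (by norm_num) hr0
      hg1 hg2 hg3 hg4 hM (fun y hy => (le_abs_self _).trans (hMx y hy))).2 la0
    have a2 := (lam_one_sided' ho hb h2 h1 hS' hx hn (c := 1 / 6) (by norm_num) (by norm_num) hr0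
      hg1 hg2 hg3 hg4 hM
      (fun y hy => (le_abs_self _).trans (by rw [abs_sub_comm]; exact hMx y hy))).2
      (fun z hz => by have := la0 z hz; linarith)
    rw [fderiv_sub_eq _ _ _ h2.lam_smooth h1.lam_smooth] at a2
    refine fderiv_zero _ x (h1.lam_smooth.sub h2.lam_smooth) la0 n hn hg4 (le_antisymm a1 ?_)
    rw [fderiv_sub_eq _ _ _ h1.lam_smooth h2.lam_smooth]
    have : (fderiv ℝ lam₂ x - fderiv ℝ lam₁ x) n = - ((fderiv ℝ lam₁ x - fderiv ℝ lam₂ x) n) := by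
      simp
    rw [this] at a2
    linarith
  intro x hx
  have e1 := mu1 x hx
  have e2 := la1 x hx
  rw [fderiv_sub_eq _ _ _ h1.mu_smooth h2.mu_smooth] at e1
  rw [fderiv_sub_eq _ _ _ h1.lam_smooth h2.lam_smooth] at e2
  exact ⟨sub_eq_zero.mp (mu0 x hx), sub_eq_zero.mp (la0 x hx), sub_eq_zero.mp e1,
    sub_eq_zero.mp e2⟩

end Vale.Agent.P136.BD.Rough
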