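import Vale.Agent.P136.H222.OneSided

set_option linter.all false

/-! The elasticity side of the interior uniqueness, from the transfer of solutions only. -/

open MeasureTheory Filter Topology
open scoped ContDiff InnerProductSpace

namespace Vale.Agent.P136.TL.Rough

/-- two smooth functions. -/
structure SmP (lam mu : E3 → ℝ) : Prop where
  lam_smooth : ContDiff ℝ ∞ lam
  mu_smooth : ContDiff ℝ ∞ mu

/-- every complex solution of the first system has a partner for the second one with the same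
Cauchy data. -/
def Transfer (Ω : Set E3) (lam₁ mu₁ lam₂ mu₂ : E3 → ℝ) : Prop :=
  ∀ (u : Fin 3 → E3 → ℂ) (du : Fin 3 → Fin 3 → E3 → ℂ), CH1 Ω u du →
      CSol Ω lam₁ mu₁ du → ∃ (v : Fin 3 → E3 → ℂ) (dv : Fin 3 → Fin 3 → E3 → ℂ),
        (∀ j, CH10 Ω (v j) (fun i => dv i j)) ∧
        ∀ g : Fin 3 → E3 → ℂ, (∀ j, ContDiff ℝ ∞ (g j)) →
          cform Ω lam₂ mu₂ (fun i j x => du i j x + dv i j x) (fun i j => pd i (g j)) =
          cform Ω lam₁ mu₁ du (fun i j => pd i (g j))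

def TL_statement' : Prop :=
  ∀ (Ω : Set E3) (lam₁ mu₁ lam₂ mu₂ : E3 → ℝ), IsOpen Ω → Bornology.IsBounded Ω →
    SmP lam₁ mu₁ → SmP lam₂ mu₂ →
    (∀ x, 0 < mu₁ x) → (∀ x, 0 < lam₁ x + mu₁ x) →
    (∀ x, 0 < mu₂ x) → (∀ x, 0 < lam₂ x + mu₂ x) →
    Transfer Ω lam₁ mu₁ lam₂ mu₂ →
    (∀ x ∈ frontier Ω, mu₁ x = mu₂ x ∧ lam₁ x = lam₂ x ∧
      fderiv ℝ mu₁ x = fderiv ℝ mu₂ x ∧ fderiv ℝ lam₁ x = fderiv ℝ lam₂ x) →
    TLS Ω mu₁ (fun x => 2 * (lam₁ x + 2 * mu₁ x) / (mu₁ x * (lam₁ x + mu₁ x)))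
      mu₂ (fun x => 2 * (lam₂ x + 2 * mu₂ x) / (mu₂ x * (lam₂ x + mu₂ x)))

theorem exists_data' (hTLB : TLB_statement) (hCGO : CGO1_statement) {Ω : Set E3}
    (ho : IsOpen Ω) (hb : Bornology.IsBounded Ω) {lam₁ mu₁ lam₂ mu₂ : E3 → ℝ}
    (hA1 : SmP lam₁ mu₁) (hA2 : SmP lam₂ mu₂)
    (p1 : ∀ x, 0 < mu₁ x) (q1 : ∀ x, 0 < lam₁ x + mu₁ x)
    (p2 : ∀ x, 0 < mu₂ x) (q2 : ∀ x, 0 < lam₂ x + mu₂ x)
    (hDN : Transfer Ω lam₁ mu₁ lam₂ mu₂)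
    (hbd : ∀ x ∈ frontier Ω, mu₁ x = mu₂ x ∧ lam₁ x = lam₂ x ∧
      fderiv ℝ mu₁ x = fderiv ℝ mu₂ x ∧ fderiv ℝ lam₁ x = fderiv ℝ lam₂ x)
    {ζ : Fin 3 → ℂ} (hζ : dot ζ ζ = 0) (hζ0 : ζ ≠ 0) {R : ℝ} (hR : 0 < R)
    (hcl : closure Ω ⊆ Metric.ball 0 R) (U : Fin 3 → Sm) (d : Sm)
    (hTr : Transport ζ lam₁ mu₁ (4 * R) (fun j => (U j : E3 → ℂ)) d) :
    ∃ M T : ℝ, ∀ t : ℝ, T ≤ t → 0 < t ∧
      ∃ u du p v dv, Dt Ω lam₁ mu₁ lam₂ mu₂ ζ U d M t u du p v dv := by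
  obtain ⟨C, T, hC⟩ := hCGO lam₁ mu₁ hA1.lam_smooth hA1.mu_smooth p1 q1 R hR ζ hζ hζ0
    (fun j => (U j : E3 → ℂ)) d (fun j => sm_cd (U j)) (sm_cd d) hTr
  obtain ⟨CB, τ₀, hCB, hτ₀, hTB⟩ := hTLB Ω lam₁ mu₁ lam₂ mu₂ R ho hb hA1.lam_smooth
    hA1.mu_smooth hA2.lam_smooth hA2.mu_smooth p1 q1 p2 q2 hbd hcl
  have hs : Ω ⊆ Metric.ball (0 : E3) R := subset_closure.trans hcl
  have hB : Bornology.IsBounded (Metric.ball (0 : E3) R) := Metric.isBounded_ball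
  have hre : 0 < ‖reV ζ‖ := norm_pos_iff.mpr (reV_ne_zero hζ hζ0)
  obtain ⟨C', hC'0, hC'⟩ : ∃ C' : ℝ, 0 ≤ C' ∧ C ≤ C' := ⟨max C 0, le_max_right _ _, le_max_left _ _⟩
  obtain ⟨D, hD⟩ : ∃ D : ℝ, D = ∫ x in Metric.ball (0 : E3) R, ‖(d : E3 → ℂ) x‖ ^ 2 := ⟨_, rfl⟩
  obtain ⟨DU, hDU⟩ : ∃ DU : Fin 3 → ℝ, ∀ j, DU j = ∫ x in Metric.ball (0 : E3) R,
    ‖(U j : E3 → ℂ) x‖ ^ 2 := ⟨_, fun j => rfl⟩
  have hD0 : 0 ≤ D := by rw [hD]; exact integral_nonneg fun _ => by positivity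
  have hDU0 : ∀ j, 0 ≤ DU j := fun j => by rw [hDU]; exact integral_nonneg fun _ => by positivity
  obtain ⟨W, hW⟩ : ∃ W : ℝ, W = (2 * C' + 2 * D) + (∑ i, (2 * C' + 2 * (‖ζ i‖ ^ 2 * D)))
    + ∑ i, ∑ j, (2 * C' + 2 * (‖ζ i‖ ^ 2 * DU j)) := ⟨_, rfl⟩
  have hW0 : 0 ≤ W := by
    rw [hW]
    refine add_nonneg (add_nonneg (by (clear * - hC'0 hD0; positivity)) (Finset.sum_nonneg fun i _ => by (clear * - hC'0 hD0; positivity)))
      (Finset.sum_nonneg fun i _ => Finset.sum_nonneg fun j _ => ?_)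
    have := hDU0 j
    (clear * - hC'0 this; positivity)
  have hWp : 0 ≤ CB * W / ‖reV ζ‖ ^ 2 := by (clear * - hCB hW0 hre; positivity)
  refine ⟨C' + CB * W / ‖reV ζ‖ ^ 2, max T (max 1 (τ₀ / ‖reV ζ‖)), fun t ht => ?_⟩
  have ht1 : T ≤ t := (le_max_left _ _).trans ht
  have ht2 : 1 ≤ t := ((le_max_left _ _).trans (le_max_right _ _)).trans ht
  have ht3 : τ₀ / ‖reV ζ‖ ≤ t := ((le_max_right _ _).trans (le_max_right _ _)).trans ht
  have htp : 0 < t := by linarith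
  refine ⟨htp, ?_⟩
  obtain ⟨u, du, p, dp, hu, hsol, hp, hdp, hwp, hdiv, b1, b2, b3, b4⟩ := hC t ht1
  have hu' := ch1_mono hs hu
  have hsol' := csol_mono hs hsol
  obtain ⟨v, dv, hv, htr⟩ := hDN u du hu' hsol'
  have hbig : τ₀ ≤ ‖(-t) • reV ζ‖ := by
    rw [norm_smul, Real.norm_eq_abs, abs_neg, abs_of_pos htp]
    rwa [div_le_iff₀ hre] at ht3
  have key := hTB ((-t) • reV ζ) hbig u du p dp v dv hu hsol hp hdp hwp hdiv hv htr
  have ew : ∀ x, Real.exp (2 * ⟪(-t) • reV ζ, x⟫_ℝ) * ‖∑ i, dv i i x‖ ^ 2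
      = ‖(ex ζ t : E3 → ℂ) x * ∑ i, dv i i x‖ ^ 2 := fun x =>
    weight_eq ζ t (fun x => ∑ i, dv i i x) x
  simp only [weight_eq, ew] at key
  have c1 : ∫ x in Ω, ‖(ex ζ t : E3 → ℂ) x * p x‖ ^ 2 ≤ t ^ 2 * (2 * C' + 2 * D) := by
    have b3' : ∫ x in Metric.ball (0 : E3) R, ‖(ex ζ t : E3 → ℂ) x * p x
        - (1 : ℂ) * (d : E3 → ℂ) x‖ ^ 2 ≤ C' := by
      simp only [one_mul]
      refine b3.trans ?_
      rw [div_le_iff₀ (by positivity)]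
      have : 1 ≤ t ^ 2 := by (by_contra nlg; linarith only [nlg, mul_nonneg (sub_nonneg.2 ht2) (le_of_lt (sub_pos.2 htp)), mul_pos (sub_pos.2 (not_le.1 nlg)) (sub_pos.2 htp), mul_nonneg (sq_nonneg (t : ℝ)) (sub_nonneg.2 ht2)])
      linarith only [mul_nonneg (sub_nonneg.2 hC'0) (sub_nonneg.2 this), hC']
    refine (bd_conj hB hs ζ t hp d 1 b3' hD).trans ?_
    simp only [norm_one, one_pow, one_mul]
    exact num_bd1 ht2 hC'0 hD0
  have c2 : ∀ i, ∫ x in Ω, ‖(ex ζ t : E3 → ℂ) x * dp i x‖ ^ 2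
      ≤ t ^ 2 * (2 * C' + 2 * (‖ζ i‖ ^ 2 * D)) := by
    intro i
    refine (bd_conj hB hs ζ t (hdp i) d (t * ζ i) ((b4 i).trans hC') hD).trans ?_
    rw [norm_mul, Complex.norm_real, Real.norm_eq_abs, abs_of_pos htp]
    exact num_bd ht2 hC'0
  have c3 : ∀ i j, ∫ x in Ω, ‖(ex ζ t : E3 → ℂ) x * du i j x‖ ^ 2
      ≤ t ^ 2 * (2 * C' + 2 * (‖ζ i‖ ^ 2 * DU j)) := by
    intro i j
    refine (bd_conj hB hs ζ t (hu.der_mem i j) (U j) (t * ζ i) ((b2 i j).trans hC')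
      (hDU j)).trans ?_
    rw [norm_mul, Complex.norm_real, Real.norm_eq_abs, abs_of_pos htp]
    exact num_bd ht2 hC'0
  have c4 : (∫ x in Ω, ‖(ex ζ t : E3 → ℂ) x * p x‖ ^ 2)
        + (∑ i, ∫ x in Ω, ‖(ex ζ t : E3 → ℂ) x * dp i x‖ ^ 2)
        + ∑ i, ∑ j, ∫ x in Ω, ‖(ex ζ t : E3 → ℂ) x * du i j x‖ ^ 2 ≤ t ^ 2 * W := by
    rw [hW, mul_add, mul_add, Finset.mul_sum, Finset.mul_sum]
    refine add_le_add (add_le_add c1 (Finset.sum_le_sum fun i _ => c2 i))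
      (Finset.sum_le_sum fun i _ => ?_)
    rw [Finset.mul_sum]
    exact Finset.sum_le_sum fun j _ => c3 i j
  have c5 := bound_v htp hre hCB key c4
  have n1 : ∀ j, 0 ≤ ∫ x, ‖(ex ζ t : E3 → ℂ) x * v j x‖ ^ 2 := fun j =>
    integral_nonneg fun _ => by (clear * -; positivity)
  have n2 : 0 ≤ ∫ x, ‖(ex ζ t : E3 → ℂ) x * ∑ i, dv i i x‖ ^ 2 :=
    integral_nonneg fun _ => by (clear * -; positivity)
  have mm : ∀ {f : E3 → ℂ}, MemLp f 2 (volume.restrict (Metric.ball (0 : E3) R)) →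
      MemLp (fun x => (ex ζ t : E3 → ℂ) x * f x) 2
        (volume.restrict (Metric.ball (0 : E3) R)) := fun hf =>
    memLp_mul_cont hB (sm_cont _) hf
  have mS : ∀ f : Sm, MemLp (f : E3 → ℂ) 2 (volume.restrict (Metric.ball (0 : E3) R)) :=
    fun f => memLp_cont hB (sm_cont f)
  have hMt : C / t ^ 2 ≤ (C' + CB * W / ‖reV ζ‖ ^ 2) / t ^ 2 := by
    gcongr
    linarith
  refine ⟨u, du, p, v, dv, ⟨hu'.val_mem, hu'.der_mem,
    hp.mono_measure (Measure.restrict_mono hs le_rfl), ?_, ?_, hv, htr, ?_, ?_, ?_, ?_⟩⟩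
  · intro i j η hη
    exact ibp_IO ho hb hcl (hu.val_mem j) (hu.der_mem i j) (hu.weak i j) η hη
  · exact ae_mono (Measure.restrict_mono hs le_rfl) hdiv
  · intro j
    exact le_trans (sq_mono_set hs ((mm (hu.val_mem j)).sub (mS (U j)))) ((b1 j).trans hMt)
  · exact le_trans (sq_mono_set hs ((mm hp).sub (mS d))) (b3.trans hMt)
  · intro j
    rw [setIntegral_eq_integral_of_forall_compl_eq_zero (fun x hx => by
      simp [(hv j).val_zero x hx])]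
    have : ∫ x, ‖(ex ζ t : E3 → ℂ) x * v j x‖ ^ 2
        ≤ ∑ j, ∫ x, ‖(ex ζ t : E3 → ℂ) x * v j x‖ ^ 2 :=
      Finset.single_le_sum (f := fun j => ∫ x, ‖(ex ζ t : E3 → ℂ) x * v j x‖ ^ 2)
        (fun j _ => n1 j) (Finset.mem_univ j)
    linarith only [this, n2, c5, hC'0]
  · rw [setIntegral_eq_integral_of_forall_compl_eq_zero (fun x hx => by
      simp [(hv _).der_zero _ x hx])]
    have : 0 ≤ ∑ j, ∫ x, ‖(ex ζ t : E3 → ℂ) x * v j x‖ ^ 2 := Finset.sum_nonneg fun j _ => n1 j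
    linarith only [this, c5, hC'0]

theorem TL_main' (hTLB : TLB_statement) (hCGO : CGO1_statement) (hfin : TLfin_statement)
    {Ω : Set E3} (ho : IsOpen Ω) (hb : Bornology.IsBounded Ω) {lam₁ mu₁ lam₂ mu₂ : E3 → ℝ}
    (hA1 : SmP lam₁ mu₁) (hA2 : SmP lam₂ mu₂)
    (p1 : ∀ x, 0 < mu₁ x) (q1 : ∀ x, 0 < lam₁ x + mu₁ x)
    (p2 : ∀ x, 0 < mu₂ x) (q2 : ∀ x, 0 < lam₂ x + mu₂ x)
    (hDN : Transfer Ω lam₁ mu₁ lam₂ mu₂)
    (hbd : ∀ x ∈ frontier Ω, mu₁ x = mu₂ x ∧ lam₁ x = lam₂ x ∧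
      fderiv ℝ mu₁ x = fderiv ℝ mu₂ x ∧ fderiv ℝ lam₁ x = fderiv ℝ lam₂ x)
    {ζ ζ' : Fin 3 → ℂ} (hζ : dot ζ ζ = 0) (hζζ' : dot ζ ζ' = 0) (hζ' : dot ζ' ζ' ≠ 0)
    (hζ0 : ζ ≠ 0) {R : ℝ} (hR : 0 < R)
    (hcl : closure Ω ⊆ Metric.ball 0 R) (h G z : Sm)
    (hS : Ssol ζ ζ' mu₁ (fun x => 2 * (lam₁ x + 2 * mu₁ x) / (mu₁ x * (lam₁ x + mu₁ x)))
      (4 * R) h G z) :
    Concl Ω mu₁ (fun x => 2 * (lam₁ x + 2 * mu₁ x) / (mu₁ x * (lam₁ x + mu₁ x)))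
      mu₂ (fun x => 2 * (lam₂ x + 2 * mu₂ x) / (mu₂ x * (lam₂ x + mu₂ x))) ζ ζ' h G z := by
  obtain ⟨n, s, r, nn, H⟩ := exists_Med hA1.lam_smooth hA1.mu_smooth p1 q1
  obtain ⟨l₁, hl₁⟩ : ∃ l₁, l₁ = ofR lam₁ hA1.lam_smooth := ⟨_, rfl⟩
  obtain ⟨m₁, hm₁⟩ : ∃ m₁, m₁ = ofR mu₁ hA1.mu_smooth := ⟨_, rfl⟩
  have hTr := transport_of p1 q1 H hζ hζζ' h G z hS
  obtain ⟨M, T, hdata⟩ := exists_data' hTLB hCGO ho hb hA1 hA2 p1 q1 p2 q2 hDN hbd hζ hζ0 hR hcl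
    (fun j => aU ζ ζ' n r h G j) (ofR mu₁ hA1.mu_smooth * z * nn) hTr
  obtain ⟨t, ht⟩ : ∃ t : ℕ → ℝ, ∀ k, t k = max T 0 + k := ⟨_, fun k => rfl⟩
  have htT : ∀ k, T ≤ t k := fun k => by
    rw [ht]
    have h1 := le_max_left T 0
    have h2 : (0 : ℝ) ≤ k := Nat.cast_nonneg k
    linarith
  have htp : ∀ k, 0 < t k := fun k => (hdata (t k) (htT k)).1
  choose u du p v dv hD using fun k => (hdata (t k) (htT k)).2
  obtain ⟨F, hF⟩ : ∃ F : Ultrafilter ℕ, (F : Filter ℕ) ≤ atTop :=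
    ⟨Ultrafilter.of atTop, Ultrafilter.of_le _⟩
  have mv : ∀ k j, MemLp (v k j) 2 (volume.restrict Ω) := fun k j =>
    ((hD k).hv j).val_mem.restrict _
  have mdv : ∀ k i j, MemLp (dv k i j) 2 (volume.restrict Ω) := fun k i j =>
    (((hD k).hv j).der_mem i).restrict _
  have mq : ∀ k, MemLp (fun x => ∑ i, dv k i i x) 2 (volume.restrict Ω) := fun k =>
    memLp_finsetSum _ fun i _ => mdv k i i
  choose V hV hVl using fun j => weak_limit_L2 (μ := volume.restrict Ω) F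
    (fun k x => (ex ζ (t k) : E3 → ℂ) x * v k j x)
    (fun k => memLp_mul_cont hb (sm_cont _) (mv k j)) M (fun k => (hD k).cv j)
  obtain ⟨Q, hQ, hQl⟩ := weak_limit_L2 (μ := volume.restrict Ω) F
    (fun k x => (ex ζ (t k) : E3 → ℂ) x * ∑ i, dv k i i x)
    (fun k => memLp_mul_cont hb (sm_cont _) (mq k)) M (fun k => (hD k).cq)
  have htlim : Tendsto t atTop atTop := by
    have : t = fun k : ℕ => max T 0 + (k : ℝ) := funext ht
    rw [this]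
    exact tendsto_atTop_add_const_left _ _ tendsto_natCast_atTop_atTop
  have hinv : Tendsto (fun k => ((t k : ℝ) : ℂ)⁻¹) F (𝓝 0) := by
    have h1 : Tendsto (fun k => (t k)⁻¹) atTop (𝓝 0) := tendsto_inv_atTop_zero.comp htlim
    have h2 : Tendsto (fun k => (((t k)⁻¹ : ℝ) : ℂ)) atTop (𝓝 ((0 : ℝ) : ℂ)) :=
      (Complex.continuous_ofReal.tendsto 0).comp h1
    simp only [Complex.ofReal_inv, Complex.ofReal_zero] at h2
    exact h2.mono_left hF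
  have hne : ∀ᶠ k in (F : Filter ℕ), ((t k : ℝ) : ℂ) ≠ 0 :=
    Eventually.of_forall fun k => by exact_mod_cast (htp k).ne'
  have hsq : Tendsto (fun k => M / (t k) ^ 2) F (𝓝 0) := by
    have h1 : Tendsto (fun k => (t k)⁻¹) atTop (𝓝 0) := tendsto_inv_atTop_zero.comp htlim
    have h2 := (h1.pow 2).const_mul M
    simp only [ne_eq, OfNat.ofNat_ne_zero, not_false_eq_true, zero_pow, mul_zero] at h2
    refine (h2.congr fun k => ?_).mono_left hF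
    rw [div_eq_mul_inv, inv_pow]
  have hVv : ∀ j η, Tendsto (fun k => Tm Ω hb (v k j) (mv k j) (ex ζ (t k) * η)) F
      (𝓝 (Tm Ω hb (V j) (hV j) η)) := fun j η =>
    weak_lim hb (fun k => mv k j) (hV j) (hVl j) η
  have hQv : ∀ η, Tendsto (fun k => ∑ i, Tm Ω hb (dv k i i) (mdv k i i) (ex ζ (t k) * η)) F
      (𝓝 (Tm Ω hb Q hQ η)) := by
    intro η
    have h1 := weak_lim hb (w := fun k x => ∑ i, dv k i i x) mq hQ hQl η
    refine h1.congr fun k => ?_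
    exact (sum_Tm hb (mdv k) (mq k) (Eventually.of_forall fun x => rfl) _).symm
  have hVu : ∀ j η, Tendsto (fun k => Tm Ω hb (u k j) ((hD k).mu j) (ex ζ (t k) * η)) F
      (𝓝 (om Ω hb (aU ζ ζ' n r h G j * η))) := fun j η =>
    strong_lim hb (fun k => (hD k).mu j) hsq (fun k => (hD k).cu j) η
  have hQu : ∀ η, Tendsto (fun k => ∑ i, Tm Ω hb (du k i i) ((hD k).mdu i i) (ex ζ (t k) * η)) F
      (𝓝 (om Ω hb ((ofR mu₁ hA1.mu_smooth * z * nn) * η))) := by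
    intro η
    have h1 := strong_lim hb (fun k => (hD k).mp) hsq (fun k => (hD k).cp) η
    refine h1.congr fun k => ?_
    exact (sum_Tm hb (hD k).mdu (hD k).mp (hD k).div _).symm
  have hIv : ∀ k, IBP (fun j => Tm Ω hb (v k j) (mv k j))
      (fun i j => Tm Ω hb (dv k i j) (mdv k i j)) ⊤ := by
    intro k i j η _
    exact ch10_ibp hb ((hD k).hv j) i η
  have hIu : ∀ k, IBP (fun j => Tm Ω hb (u k j) ((hD k).mu j))
      (fun i j => Tm Ω hb (du k i j) ((hD k).mdu i j)) (IO Ω) := by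
    intro k i j η hη
    exact (hD k).ibpu i j η hη
  have hCC : ∀ k g, Cf (fun i j => Tm Ω hb (dv k i j) (mdv k i j)) (ofR lam₂ hA2.lam_smooth)
      (ofR mu₂ hA2.mu_smooth) g = Cf (fun i j => Tm Ω hb (du k i j) ((hD k).mdu i j))
      (ofR lam₁ hA1.lam_smooth - ofR lam₂ hA2.lam_smooth)
      (ofR mu₁ hA1.mu_smooth - ofR mu₂ hA2.mu_smooth) g := fun k g =>
    hC_of hb hA1.lam_smooth hA1.mu_smooth hA2.lam_smooth hA2.mu_smooth (hD k).mdu (mdv k)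
      (hD k).tr g
  have hdm := IO_of_bd (Ω := Ω) hA1.mu_smooth hA2.mu_smooth (fun x hx => (hbd x hx).1)
  have hPdm := P_IO_of_bd (Ω := Ω) hA1.mu_smooth hA2.mu_smooth (fun x hx => (hbd x hx).2.2.1)
  have hee : ∀ k i, P i (ex ζ (t k)) = -(K ((t k : ℝ) : ℂ) * K (ζ i) * ex ζ (t k)) := fun k i =>
    P_ex ζ (t k) i
  have hZ : ∀ η, ∑ j, ζ j * Tm Ω hb (V j) (hV j) η = 0 := fun η =>
    lim_Z (F := F) (Tv := fun k j => Tm Ω hb (v k j) (mv k j))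
      (Tv' := fun k i j => Tm Ω hb (dv k i j) (mdv k i j))
      (Vv := fun j => Tm Ω hb (V j) (hV j)) hinv hne hee hIv hVv hQv η
  have hT1 := lim_T1 (F := F) (Tv := fun k j => Tm Ω hb (v k j) (mv k j))
      (Tv' := fun k i j => Tm Ω hb (dv k i j) (mdv k i j))
      (Tu := fun k j => Tm Ω hb (u k j) ((hD k).mu j))
      (Tu' := fun k i j => Tm Ω hb (du k i j) ((hD k).mdu i j))
      (Vv := fun j => Tm Ω hb (V j) (hV j))
      (Vu := fun j => (om Ω hb).comp (LinearMap.mulLeft ℂ (aU ζ ζ' n r h G j)))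
      (Qu := (om Ω hb).comp (LinearMap.mulLeft ℂ (ofR mu₁ hA1.mu_smooth * z * nn)))
      hinv hne hζ hee hIv hIu hCC hdm hVv hQv hVu hQu
  have hT2 := lim_T2 (F := F) (Tv := fun k j => Tm Ω hb (v k j) (mv k j))
      (Tv' := fun k i j => Tm Ω hb (dv k i j) (mdv k i j))
      (Tu := fun k j => Tm Ω hb (u k j) ((hD k).mu j))
      (Tu' := fun k i j => Tm Ω hb (du k i j) ((hD k).mdu i j))
      (Vv := fun j => Tm Ω hb (V j) (hV j))
      (Vu := fun j => (om Ω hb).comp (LinearMap.mulLeft ℂ (aU ζ ζ' n r h G j)))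
      (Qu := (om Ω hb).comp (LinearMap.mulLeft ℂ (ofR mu₁ hA1.mu_smooth * z * nn)))
      hinv hne hζ hee hIv hIu hCC hdm hPdm hVv hQv hVu hQu
  simp only [LinearMap.comp_apply, LinearMap.mulLeft_apply] at hT1 hT2
  have hcl4 : closure Ω ⊆ Metric.ball 0 (4 * R) :=
    hcl.trans (Metric.ball_subset_ball (by linarith))
  refine hfin Ω hb lam₁ mu₁ lam₂ mu₂ hA1.lam_smooth hA1.mu_smooth hA2.lam_smooth
    hA2.mu_smooth ho p1 q1 p2 q2 hbd ζ ζ' (4 * R) hζ hζζ' hζ' hζ0 hcl4 h G z (sm_cd h) (sm_cd G)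
    (sm_cd z) hS V Q hV hQ (fun j => aU ζ ζ' n r h G j) (ofR mu₁ hA1.mu_smooth * z * nn)
    (fun j => aU_coe H ζ ζ' h G j) (ad_coe H z) hZ ?_ ?_
  · intro ψ
    exact T1_simp hζ hζζ' n r h G _ _ _ _ _ _ ψ hZ (hT1 ψ)
  · intro χ
    exact hT2 χ

theorem TL_of' (hTLB : TLB_statement) (hCGO : CGO1_statement) (hfin : TLfin_statement) :
    TL_statement' := by
  intro Ω lam₁ mu₁ lam₂ mu₂ ho hb hA1 hA2 p1 q1 p2 q2 hDN hbd ζ ζ' R hζ hζζ' hζ' hcl h G z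
    hh hG hz hS
  have key : Concl Ω mu₁ (fun x => 2 * (lam₁ x + 2 * mu₁ x) / (mu₁ x * (lam₁ x + mu₁ x)))
      mu₂ (fun x => 2 * (lam₂ x + 2 * mu₂ x) / (mu₂ x * (lam₂ x + mu₂ x))) ζ ζ' h G z := by
    rcases Ω.eq_empty_or_nonempty with hΩ | hΩ
    · subst hΩ
      exact concl_empty
    by_cases hζ0 : ζ = 0
    · subst hζ0
      have pos : ∀ {l m : E3 → ℝ}, (∀ x, 0 < m x) → (∀ x, 0 < l x + m x) →
          ∀ x, 2 * (l x + 2 * m x) / (m x * (l x + m x)) ≠ 0 := by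
        intro l m hm hl x
        have h1 := hm x
        have h2 := hl x
        have h3 : 0 < l x + 2 * m x := by linarith
        (clear * - h3 h1 h2; positivity)
      have cont : ∀ {l m : E3 → ℝ}, ContDiff ℝ ∞ l → ContDiff ℝ ∞ m → (∀ x, 0 < m x) →
          (∀ x, 0 < l x + m x) →
          Continuous fun x => 2 * (l x + 2 * m x) / (m x * (l x + m x)) := by
        intro l m hl hm h1 h2
        refine Continuous.div ?_ ?_ fun x => (mul_pos (h1 x) (h2 x)).ne'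
        · exact continuous_const.mul (hl.continuous.add (continuous_const.mul hm.continuous))
        · exact hm.continuous.mul (hl.continuous.add hm.continuous)
      exact concl_zero ho hb (cont hA1.lam_smooth hA1.mu_smooth p1 q1)
        (cont hA2.lam_smooth hA2.mu_smooth p2 q2) (pos p1 q1) (pos p2 q2)
        (hA1.mu_smooth.sqrt fun x => (p1 x).ne') (hA2.mu_smooth.sqrt fun x => (p2 x).ne')
        hh.continuous hz.continuous
    · have hR : 0 < R := by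
        obtain ⟨x, hx⟩ := hΩ
        have h1 := hcl (subset_closure hx)
        rw [Metric.mem_ball] at h1
        have := dist_nonneg (x := x) (y := (0 : E3))
        linarith
      have hS' : Ssol ζ ζ' mu₁
          (fun x => 2 * (lam₁ x + 2 * mu₁ x) / (mu₁ x * (lam₁ x + mu₁ x))) (4 * (R / 4))
          ((⟨h, hh⟩ : Sm) : E3 → ℂ) ((⟨G, hG⟩ : Sm) : E3 → ℂ) ((⟨z, hz⟩ : Sm) : E3 → ℂ) := by
        rw [show 4 * (R / 4) = R by ring]
        exact hS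
      exact TL_main' hTLB hCGO hfin ho hb hA1 hA2 p1 q1 p2 q2 hDN hbd hζ hζζ' hζ' hζ0
        (R := R / 4) (by linarith)
        (hcl.trans (Metric.ball_subset_ball (by linarith))) ⟨h, hh⟩ ⟨G, hG⟩ ⟨z, hz⟩ hS'
  exact key

theorem TLfull' : TL_statement' := TL_of' TLB CGO1 (TL.TLfin_of TL.TLfin3 UNIQ)

end Vale.Agent.P136.TL.Rough
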